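import Vale.Agent.P200.E.Rep

/-!
# P200 / E : the algebra of expansions
-/

open CategoryTheory CategoryTheory.Limits MulOpposite

universe v' u' w u

namespace Vale.Agent.P200.E

variable {D P : Type u} [Ring D] [Ring P] {𝒮 : Sys D P}

open Ob

section alg

variable (F : Free1 𝒮) {M : Type} [AddCommMonoid M] (mon : Multiplicative M →* P)
  (ρ : RkData 𝒮) {𝒟 : Type u'} [Category.{v'} 𝒟] [Preadditive 𝒟] (L : Ob 𝒮 ⥤ 𝒟)
  [L.IsLocalization ρ.toRankFn.S] [L.Additive]
  {U : Type w} [Ring U] (θ : U ≃+* (End (L.obj F.O))ᵐᵒᵖ)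

/-- an element of `U` as a morphism -/
def mo (u : U) : L.obj F.O ⟶ L.obj F.O := (θ u).unop

/-- a morphism as an element of `U` -/
def el (a : L.obj F.O ⟶ L.obj F.O) : U := θ.symm (opp a)

@[simp] lemma mo_el (a : L.obj F.O ⟶ L.obj F.O) : mo F L θ (el F L θ a) = a := by
  simp [mo, el]

@[simp] lemma el_mo (u : U) : el F L θ (mo F L θ u) = u := by
  change θ.symm (θ u) = u
  simp

lemma mo_mul (u v : U) : mo F L θ (u * v) = mo F L θ u ≫ mo F L θ v := by
  unfold mo
  rw [map_mul]
  rfl

lemma mo_add (u v : U) : mo F L θ (u + v) = mo F L θ u + mo F L θ v := by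
  unfold mo
  rw [map_add]
  rfl

lemma mo_zero : mo F L θ (0 : U) = 0 := by
  unfold mo
  rw [map_zero]
  rfl

lemma mo_one : mo F L θ (1 : U) = 𝟙 _ := by
  unfold mo
  rw [map_one]
  rfl

lemma mo_injective {u v : U} (h : mo F L θ u = mo F L θ v) : u = v := by
  rw [← el_mo F L θ u, ← el_mo F L θ v, h]

/-- the scalars -/
noncomputable def ιU : D →+* U where
  toFun d := el F L θ (L.map (F.rm d))
  map_one' := by
    apply mo_injective F L θ
    rw [mo_el, F.rm_one, L.map_id, mo_one]
  map_mul' d d' := by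
    apply mo_injective F L θ
    rw [mo_mul, mo_el, mo_el, mo_el, F.rm_mul, L.map_comp]
  map_zero' := by
    apply mo_injective F L θ
    rw [mo_el, F.rm_zero, L.map_zero, mo_zero]
  map_add' d d' := by
    apply mo_injective F L θ
    rw [mo_add, mo_el, mo_el, mo_el, F.rm_add, L.map_add]

lemma mo_ιU (d : D) : mo F L θ (ιU F L θ d) = L.map (F.rm d) := mo_el F L θ _

/-- the coefficients of an element of `U[M]` as morphisms -/
noncomputable def toF (G : AddMonoidAlgebra U M) : M →₀ (L.obj F.O ⟶ L.obj F.O) :=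
  G.coeff.mapRange (mo F L θ) (mo_zero F L θ)

lemma toF_apply (G : AddMonoidAlgebra U M) (m : M) :
    toF F L θ G m = mo F L θ (G.coeff m) := by simp [toF]

lemma toF_add (G G' : AddMonoidAlgebra U M) :
    toF F L θ (G + G') = toF F L θ G + toF F L θ G' := by
  ext m
  rw [Finsupp.add_apply, toF_apply, toF_apply, toF_apply, AddMonoidAlgebra.coeff_add,
    Finsupp.add_apply, mo_add]

lemma toF_zero : toF F L θ (0 : AddMonoidAlgebra U M) = 0 := by
  ext m
  rw [toF_apply, AddMonoidAlgebra.coeff_zero, Finsupp.zero_apply, mo_zero, Finsupp.zero_apply]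

lemma toF_single (m : M) (u : U) :
    toF F L θ (AddMonoidAlgebra.single m u) = Finsupp.single m (mo F L θ u) := by
  unfold toF
  rw [AddMonoidAlgebra.coeff_single, Finsupp.mapRange_single]

lemma toF_injective {G G' : AddMonoidAlgebra U M} (h : toF F L θ G = toF F L θ G') : G = G' := by
  apply AddMonoidAlgebra.ext
  ext m
  have h1 := DFunLike.congr_fun h m
  rw [toF_apply, toF_apply] at h1
  exact mo_injective F L θ h1

lemma toF_act (m0 m1 : M) (u0 u1 : U) (G : AddMonoidAlgebra U M) :
    toF F L θ ((AddMonoidAlgebra.single m0 u0 + AddMonoidAlgebra.single m1 u1) * G) =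
      act m0 m1 (mo F L θ u0) (mo F L θ u1) (toF F L θ G) := by
  induction G using AddMonoidAlgebra.induction_linear with
  | zero => rw [mul_zero, toF_zero, map_zero]
  | add a b ha hb => rw [mul_add, toF_add, ha, hb, toF_add, map_add]
  | single m u =>
    rw [add_mul, AddMonoidAlgebra.single_mul_single, AddMonoidAlgebra.single_mul_single, toF_add,
      toF_single, toF_single, toF_single, act_single, mo_mul, mo_mul]

lemma toF_compL (u : U) (G : AddMonoidAlgebra U M) :
    toF F L θ (AddMonoidAlgebra.single 0 u * G) = compL M (mo F L θ u) (toF F L θ G) := by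
  induction G using AddMonoidAlgebra.induction_linear with
  | zero => rw [mul_zero, toF_zero, map_zero]
  | add a b ha hb => rw [mul_add, toF_add, ha, hb, toF_add, map_add]
  | single m u =>
    rw [AddMonoidAlgebra.single_mul_single, toF_single, toF_single, compL_single, mo_mul, zero_add]

lemma toF_shift (m0 : M) (G : AddMonoidAlgebra U M) :
    toF F L θ (AddMonoidAlgebra.single m0 1 * G) = shift m0 (toF F L θ G) := by
  induction G using AddMonoidAlgebra.induction_linear with
  | zero => rw [mul_zero, toF_zero, map_zero]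
  | add a b ha hb => rw [mul_add, toF_add, ha, hb, toF_add, map_add]
  | single m u =>
    rw [AddMonoidAlgebra.single_mul_single, toF_single, toF_single, shift_single, one_mul]

/-- `E` is the expansion of `p` -/
def Wt (p : P) (E : AddMonoidAlgebra U M) : Prop :=
  ∀ (y : F.O.M) (G : AddMonoidAlgebra U M), Rep F mon ρ L y (toF F L θ G) →
    Rep F mon ρ L (p • y) (toF F L θ (E * G))

variable {F mon ρ L θ}

lemma Wt.add {p p' : P} {E E' : AddMonoidAlgebra U M} (h : Wt F mon ρ L θ p E)
    (h' : Wt F mon ρ L θ p' E') : Wt F mon ρ L θ (p + p') (E + E') := by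
  intro y G hG
  rw [add_smul, add_mul, toF_add]
  exact (h y G hG).add (h' y G hG)

lemma Wt.mul {p p' : P} {E E' : AddMonoidAlgebra U M} (h : Wt F mon ρ L θ p E)
    (h' : Wt F mon ρ L θ p' E') : Wt F mon ρ L θ (p * p') (E * E') := by
  intro y G hG
  rw [mul_smul, mul_assoc]
  exact h _ _ (h' y G hG)

lemma Wt.scalar (d : D) (hd : ∀ m, Commute (𝒮.C d) (mon m)) :
    Wt F mon ρ L θ (𝒮.C d) (AddMonoidAlgebra.single 0 (ιU F L θ d)) := by
  intro y G hG
  rw [toF_compL, mo_ιU]
  exact hG.smul d hd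

lemma Wt.monomial (m0 : M) :
    Wt F mon ρ L θ (mon (Multiplicative.ofAdd m0)) (AddMonoidAlgebra.single m0 1) := by
  intro y G hG
  rw [toF_shift]
  exact hG.monmul m0

lemma Wt.eta (m0 m1 : M) (η : P) (hcomm : ∀ m, Commute η (mon m))
    (Z : Ob 𝒮) (s a b : F.O ⟶ Z) (hs : ρ.toRankFn.S s)
    (h : η • lin s F.one = mon (Multiplicative.ofAdd m0) • lin a F.one +
      mon (Multiplicative.ofAdd m1) • lin b F.one) :
    ∃ u0 u1 : U, Wt F mon ρ L θ η
      (AddMonoidAlgebra.single m0 u0 + AddMonoidAlgebra.single m1 u1) := by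
  have hsi := ρ.toRankFn.isIso_map L s hs
  refine ⟨el F L θ (L.map a ≫ inv (L.map s)), el F L θ (L.map b ≫ inv (L.map s)), ?_⟩
  intro y G hG
  rw [toF_act, mo_el, mo_el]
  refine Rep.eta m0 m1 η _ _ hcomm (fun m => add_comm _ _) (fun m => add_comm _ _) ?_ hG
  refine ⟨Z, s, Finsupp.single m0 a + Finsupp.single m1 b, hs, ?_, ?_⟩
  · rw [map_smul, h, map_add, tot_single, tot_single]
  · rw [map_add, mapL_single, mapL_single, map_add, compR_single, compR_single]
    simp

lemma Rep.one : Rep F mon ρ L F.one (toF F L θ (1 : AddMonoidAlgebra U M)) := by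
  have h := Rep.const (F := F) (mon := mon) (ρ := ρ) (L := L) (M := M) (𝟙 F.O)
  rw [lin_id, LinearMap.id_apply, L.map_id] at h
  rw [AddMonoidAlgebra.one_def, toF_single, mo_one]
  exact h

lemma Wt.unique (hfree : ∀ (Z : Ob 𝒮) (g : M →₀ (F.O ⟶ Z)), tot F mon Z g = 0 →
      ∀ m, L.map (g m) = 0) {p p' : P} {E E' : AddMonoidAlgebra U M}
    (h : Wt F mon ρ L θ p E) (h' : Wt F mon ρ L θ p' E') (hp : p • F.one = p' • F.one) :
    E = E' := by
  have h1 := h _ _ Rep.one
  have h2 := h' _ _ Rep.one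
  rw [mul_one] at h1 h2
  rw [hp] at h1
  exact toF_injective F L θ (Rep.unique hfree h1 h2)

/-- **the ring homomorphism of expansions** -/
theorem exists_hom {A : Type*} [CommSemiring A] (φ : A →+* P)
    (hfree : ∀ (Z : Ob 𝒮) (g : M →₀ (F.O ⟶ Z)), tot F mon Z g = 0 → ∀ m, L.map (g m) = 0)
    (hA : ∀ q : A, ∃ E : AddMonoidAlgebra U M, Wt F mon ρ L θ (φ q) E) :
    ∃ ev : A →+* AddMonoidAlgebra U M, (∀ q, Wt F mon ρ L θ (φ q) (ev q)) ∧
      ∀ q, φ q • F.one = 0 → ev q = 0 := by
  choose ev hev using hA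
  have huniq : ∀ {q : A} {E : AddMonoidAlgebra U M}, Wt F mon ρ L θ (φ q) E → ev q = E :=
    fun {q} {E} h => Wt.unique hfree (hev q) h rfl
  have hone : Wt F mon ρ L θ (1 : P) (1 : AddMonoidAlgebra U M) := by
    intro y G hG
    rw [one_smul, one_mul]
    exact hG
  have hzero : Wt F mon ρ L θ (0 : P) (0 : AddMonoidAlgebra U M) := by
    intro y G hG
    rw [zero_smul, zero_mul, toF_zero]
    exact Rep.zero
  refine ⟨{ toFun := ev
            map_one' := huniq (by rw [map_one]; exact hone)
            map_mul' := fun a b => huniq (by rw [map_mul]; exact (hev a).mul (hev b))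
            map_zero' := huniq (by rw [map_zero]; exact hzero)
            map_add' := fun a b => huniq (by rw [map_add]; exact (hev a).add (hev b)) },
    hev, ?_⟩
  intro q hq
  exact Wt.unique hfree (hev q) hzero (by rw [hq, zero_smul])

/-- elements commuting in `P` have commuting expansions -/
lemma Wt.commute (hfree : ∀ (Z : Ob 𝒮) (g : M →₀ (F.O ⟶ Z)), tot F mon Z g = 0 →
      ∀ m, L.map (g m) = 0) {p p' : P} {E E' : AddMonoidAlgebra U M}
    (h : Wt F mon ρ L θ p E) (h' : Wt F mon ρ L θ p' E') (hp : p * p' = p' * p) :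
    E * E' = E' * E :=
  Wt.unique hfree (h.mul h') (h'.mul h) (by rw [hp])

end alg

end Vale.Agent.P200.E
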