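import Mathlib

/-!
# P200 / E : the small category of presentations `(m, N)`, `N ≤ P^m`

`P` a ring with a ring homomorphism `C : D →+* P` (constants), `good m N` a predicate on
submodules of `P^m`. Morphisms are the `P`-linear maps of the quotients that map constants to
constants.
-/

open CategoryTheory CategoryTheory.Limits

universe u

namespace Vale.Agent.P200.E

/-- data for the category of presentations -/
structure Sys (D P : Type u) [Ring D] [Ring P] where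
  C : D →+* P
  good : ∀ m : ℕ, Submodule P (Fin m → P) → Prop
  good_sup : ∀ (m k : ℕ) (N : Submodule P (Fin m → P)) (v : Fin k → Fin m → D), good m N →
    good m (N ⊔ Submodule.span P (Set.range fun i => fun j => C (v i j)))
  good_prod : ∀ (m m' : ℕ) (N : Submodule P (Fin m → P)) (N' : Submodule P (Fin m' → P)),
    good m N → good m' N' →
    good (m + m') (N.comap (LinearMap.funLeft P P (Fin.castAdd m')) ⊓
      N'.comap (LinearMap.funLeft P P (Fin.natAdd m)))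

variable {D P : Type u} [Ring D] [Ring P] (𝒮 : Sys D P)

/-- a presentation -/
structure Ob where
  m : ℕ
  N : Submodule P (Fin m → P)
  h : 𝒮.good m N

variable {𝒮}

namespace Ob

/-- the module of a presentation -/
abbrev M (X : Ob 𝒮) : Type u := (Fin X.m → P) ⧸ X.N

/-- the class of a constant vector -/
def cst (X : Ob 𝒮) (v : Fin X.m → D) : X.M := X.N.mkQ fun j => 𝒮.C (v j)

lemma cst_add (X : Ob 𝒮) (v w : Fin X.m → D) : X.cst (v + w) = X.cst v + X.cst w := by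
  unfold cst
  rw [← map_add]
  congr 1
  funext j
  simp

lemma cst_neg (X : Ob 𝒮) (v : Fin X.m → D) : X.cst (-v) = - X.cst v := by
  unfold cst
  rw [← map_neg]
  congr 1
  funext j
  simp

lemma cst_zero (X : Ob 𝒮) : X.cst 0 = 0 := by
  unfold cst
  rw [← map_zero X.N.mkQ]
  congr 1
  funext j
  simp

lemma cst_smul (X : Ob 𝒮) (d : D) (v : Fin X.m → D) : X.cst (d • v) = 𝒮.C d • X.cst v := by
  unfold cst
  rw [← map_smul]
  congr 1
  funext j
  simp

lemma cst_sum (X : Ob 𝒮) {ι : Type*} (s : Finset ι) (v : ι → Fin X.m → D) :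
    X.cst (∑ i ∈ s, v i) = ∑ i ∈ s, X.cst (v i) := by
  classical
  induction s using Finset.induction_on with
  | empty => simp [cst_zero]
  | insert a s ha ih => rw [Finset.sum_insert ha, Finset.sum_insert ha, cst_add, ih]

/-- every element is a combination of the classes of the basis vectors -/
lemma mkQ_eq_sum (X : Ob 𝒮) (p : Fin X.m → P) :
    X.N.mkQ p = ∑ i, p i • X.cst (Pi.single i 1) := by
  have h : p = ∑ i, p i • (fun j => 𝒮.C ((Pi.single i (1 : D) : Fin X.m → D) j)) := by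
    funext j
    rw [Finset.sum_apply, Finset.sum_eq_single j]
    · simp
    · intro b _ hb
      simp [Pi.single_apply, hb.symm]
    · simp
  conv_lhs => rw [h]
  rw [map_sum]
  refine Finset.sum_congr rfl fun i _ => ?_
  rw [map_smul]
  rfl

lemma cst_eq_sum (X : Ob 𝒮) (v : Fin X.m → D) :
    X.cst v = ∑ i, 𝒮.C (v i) • X.cst (Pi.single i 1) := by
  unfold cst
  rw [mkQ_eq_sum]
  rfl

/-- two linear maps agreeing on the constants are equal -/
lemma hom_ext_cst {X : Ob 𝒮} {T : Type*} [AddCommGroup T] [Module P T] {f g : X.M →ₗ[P] T}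
    (h : ∀ i, f (X.cst (Pi.single i 1)) = g (X.cst (Pi.single i 1))) : f = g := by
  refine LinearMap.ext fun x => ?_
  obtain ⟨p, rfl⟩ := X.N.mkQ_surjective x
  rw [mkQ_eq_sum, map_sum, map_sum]
  refine Finset.sum_congr rfl fun i _ => ?_
  rw [map_smul, map_smul, h]

/-- the linear maps carrying constants to constants -/
def homSub (X Y : Ob 𝒮) : AddSubgroup (X.M →ₗ[P] Y.M) where
  carrier := {f | ∀ v, ∃ w, f (X.cst v) = Y.cst w}
  add_mem' := by
    intro f g hf hg v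
    obtain ⟨a, ha⟩ := hf v
    obtain ⟨b, hb⟩ := hg v
    exact ⟨a + b, by rw [LinearMap.add_apply, ha, hb, cst_add]⟩
  zero_mem' := fun v => ⟨0, by rw [cst_zero]; rfl⟩
  neg_mem' := by
    intro f hf v
    obtain ⟨a, ha⟩ := hf v
    exact ⟨-a, by rw [LinearMap.neg_apply, ha, cst_neg]⟩

lemma mem_homSub {X Y : Ob 𝒮} {f : X.M →ₗ[P] Y.M} :
    f ∈ homSub X Y ↔ ∀ v, ∃ w, f (X.cst v) = Y.cst w := Iff.rfl

/-- it is enough to check the basis vectors -/
lemma mem_homSub_of_single {X Y : Ob 𝒮} {f : X.M →ₗ[P] Y.M}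
    (h : ∀ i, ∃ w, f (X.cst (Pi.single i 1)) = Y.cst w) : f ∈ homSub X Y := by
  intro v
  choose w hw using h
  refine ⟨∑ i, v i • w i, ?_⟩
  rw [cst_eq_sum, map_sum, cst_sum]
  refine Finset.sum_congr rfl fun i _ => ?_
  rw [map_smul, hw, cst_smul]

instance : Category.{u} (Ob 𝒮) where
  Hom X Y := homSub X Y
  id X := ⟨LinearMap.id, fun v => ⟨v, rfl⟩⟩
  comp f g := ⟨g.1.comp f.1, fun v => by
    obtain ⟨a, ha⟩ := f.2 v
    obtain ⟨b, hb⟩ := g.2 a
    exact ⟨b, by rw [LinearMap.comp_apply, ha, hb]⟩⟩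

/-- the underlying linear map -/
def lin {X Y : Ob 𝒮} (f : X ⟶ Y) : X.M →ₗ[P] Y.M := f.1

/-- morphism from a linear map -/
def ofLin {X Y : Ob 𝒮} (f : X.M →ₗ[P] Y.M) (hf : ∀ v, ∃ w, f (X.cst v) = Y.cst w) : X ⟶ Y :=
  ⟨f, hf⟩

@[simp] lemma lin_ofLin {X Y : Ob 𝒮} (f : X.M →ₗ[P] Y.M)
    (hf : ∀ v, ∃ w, f (X.cst v) = Y.cst w) : lin (ofLin f hf) = f := rfl

lemma lin_cst {X Y : Ob 𝒮} (f : X ⟶ Y) (v : Fin X.m → D) : ∃ w, lin f (X.cst v) = Y.cst w :=
  f.2 v

@[ext] lemma hom_ext {X Y : Ob 𝒮} {f g : X ⟶ Y} (h : lin f = lin g) : f = g := Subtype.ext h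

@[simp] lemma lin_comp {X Y Z : Ob 𝒮} (f : X ⟶ Y) (g : Y ⟶ Z) :
    lin (f ≫ g) = (lin g).comp (lin f) := rfl

@[simp] lemma lin_id (X : Ob 𝒮) : lin (𝟙 X) = LinearMap.id := rfl

instance : Preadditive (Ob 𝒮) where
  homGroup X Y := inferInstanceAs (AddCommGroup (homSub X Y))
  add_comp X Y Z f f' g := by
    apply hom_ext
    exact LinearMap.comp_add _ _ _
  comp_add X Y Z f g g' := by
    apply hom_ext
    exact LinearMap.add_comp _ _ _

@[simp] lemma lin_add {X Y : Ob 𝒮} (f g : X ⟶ Y) : lin (f + g) = lin f + lin g := rfl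
@[simp] lemma lin_sub {X Y : Ob 𝒮} (f g : X ⟶ Y) : lin (f - g) = lin f - lin g := rfl
@[simp] lemma lin_neg {X Y : Ob 𝒮} (f : X ⟶ Y) : lin (-f) = - lin f := rfl
@[simp] lemma lin_zero {X Y : Ob 𝒮} : lin (0 : X ⟶ Y) = 0 := rfl

/-- the range of a morphism as a submodule of `P^m` -/
def rangeSub {X Y : Ob 𝒮} (f : X ⟶ Y) : Submodule P (Fin Y.m → P) :=
  (LinearMap.range (lin f)).comap Y.N.mkQ

lemma le_rangeSub {X Y : Ob 𝒮} (f : X ⟶ Y) : Y.N ≤ rangeSub f := by
  intro p hp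
  simp only [rangeSub, Submodule.mem_comap]
  rw [(Submodule.Quotient.mk_eq_zero _).2 hp |> fun h => (show Y.N.mkQ p = 0 from h)]
  exact zero_mem _

lemma rangeSub_eq {X Y : Ob 𝒮} (f : X ⟶ Y) (w : Fin X.m → Fin Y.m → D)
    (hw : ∀ i, lin f (X.cst (Pi.single i 1)) = Y.cst (w i)) :
    rangeSub f = Y.N ⊔ Submodule.span P (Set.range fun i => fun j => 𝒮.C (w i j)) := by
  apply le_antisymm
  · intro p hp
    obtain ⟨q, hq⟩ := hp
    obtain ⟨q', rfl⟩ := X.N.mkQ_surjective q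
    rw [mkQ_eq_sum, map_sum] at hq
    simp only [map_smul, hw] at hq
    have h1 : Y.N.mkQ (∑ i, q' i • fun j => 𝒮.C (w i j)) = Y.N.mkQ p := by
      rw [← hq, map_sum]
      refine Finset.sum_congr rfl fun i _ => ?_
      rw [map_smul]
      rfl
    have h2 : p - (∑ i, q' i • fun j => 𝒮.C (w i j)) ∈ Y.N := by
      rw [← Submodule.Quotient.mk_eq_zero]
      have : Y.N.mkQ (p - ∑ i, q' i • fun j => 𝒮.C (w i j)) = 0 := by
        rw [map_sub, h1, sub_self]
      exact this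
    have h3 : p = (p - (∑ i, q' i • fun j => 𝒮.C (w i j))) +
        ∑ i, q' i • fun j => 𝒮.C (w i j) := by abel
    rw [h3]
    refine Submodule.add_mem_sup h2 (Submodule.sum_mem _ fun i _ => Submodule.smul_mem _ _ ?_)
    exact Submodule.subset_span ⟨i, rfl⟩
  · apply sup_le (le_rangeSub f)
    rw [Submodule.span_le]
    rintro _ ⟨i, rfl⟩
    exact ⟨_, hw i⟩

lemma good_rangeSub {X Y : Ob 𝒮} (f : X ⟶ Y) : 𝒮.good Y.m (rangeSub f) := by
  choose w hw using fun i => lin_cst f (Pi.single i 1)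
  rw [rangeSub_eq f w hw]
  exact 𝒮.good_sup _ _ _ _ Y.h

/-- the cokernel -/
def coker {X Y : Ob 𝒮} (f : X ⟶ Y) : Ob 𝒮 := ⟨Y.m, rangeSub f, good_rangeSub f⟩

/-- the projection to the cokernel -/
def cokerπ {X Y : Ob 𝒮} (f : X ⟶ Y) : Y ⟶ coker f :=
  ofLin (Submodule.mapQ _ _ LinearMap.id (le_rangeSub f)) fun v => ⟨v, rfl⟩

lemma comp_cokerπ {X Y : Ob 𝒮} (f : X ⟶ Y) : f ≫ cokerπ f = 0 := by
  apply hom_ext
  rw [lin_comp, lin_zero]
  refine LinearMap.ext fun x => ?_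
  obtain ⟨p, hp⟩ := Y.N.mkQ_surjective (lin f x)
  simp only [LinearMap.comp_apply, LinearMap.zero_apply]
  rw [← hp]
  exact (Submodule.Quotient.mk_eq_zero (rangeSub f)).2 ⟨x, hp.symm⟩

lemma cokerπ_surjective {X Y : Ob 𝒮} (f : X ⟶ Y) : Function.Surjective (lin (cokerπ f)) := by
  intro y
  obtain ⟨p, rfl⟩ := (coker f).N.mkQ_surjective y
  exact ⟨Y.N.mkQ p, rfl⟩

lemma epi_of_surjective {X Y : Ob 𝒮} (f : X ⟶ Y) (hf : Function.Surjective (lin f)) : Epi f where
  left_cancellation g h hgh := by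
    apply hom_ext
    refine LinearMap.ext fun y => ?_
    obtain ⟨x, rfl⟩ := hf y
    exact LinearMap.congr_fun (congrArg lin hgh) x

/-- descent to the cokernel -/
def cokerDesc {X Y Z : Ob 𝒮} (f : X ⟶ Y) (g : Y ⟶ Z) (h : f ≫ g = 0) : coker f ⟶ Z :=
  ofLin (Submodule.liftQ _ ((lin g).comp Y.N.mkQ) (by
    intro p hp
    obtain ⟨x, hx⟩ := hp
    have h1 : lin g (Y.N.mkQ p) = 0 := by
      rw [← hx]
      exact LinearMap.congr_fun (congrArg lin h) x
    exact h1)) (fun v => by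
      obtain ⟨w, hw⟩ := lin_cst g v
      exact ⟨w, hw⟩)

lemma cokerπ_desc {X Y Z : Ob 𝒮} (f : X ⟶ Y) (g : Y ⟶ Z) (h : f ≫ g = 0) :
    cokerπ f ≫ cokerDesc f g h = g := by
  apply hom_ext
  refine LinearMap.ext fun x => ?_
  obtain ⟨p, rfl⟩ := Y.N.mkQ_surjective x
  rfl

/-- `coker f` is a cokernel -/
def isColimitCoker {X Y : Ob 𝒮} (f : X ⟶ Y) :
    IsColimit (CokernelCofork.ofπ (cokerπ f) (comp_cokerπ f)) :=
  CokernelCofork.IsColimit.ofπ _ _ (fun g h => cokerDesc f g h) (fun g h => cokerπ_desc f g h)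
    (fun g h b hb => by
      have := epi_of_surjective (cokerπ f) (cokerπ_surjective f)
      rw [← cancel_epi (cokerπ f), hb, cokerπ_desc])

instance : HasCokernels (Ob 𝒮) where
  has_colimit f := HasColimit.mk ⟨_, isColimitCoker f⟩

end Ob

end Vale.Agent.P200.E
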