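import Mathlib

/-!
# P200 / E : rank functions and localization (block (B) of note 8822)

`C` preadditive with cokernels and binary biproducts, `rk : C → ℕ` with
`rk N ≤ rk M` for an epimorphism `M ⟶ N`, `rk N ≤ rk M + rk (coker f)` for every `f : M ⟶ N` and
`rk (M ⊞ N) = rk M + rk N`. The maps `s` with `rk (coker s) = 0` and equal ranks admit a left
calculus of fractions, and in the localization the endomorphism ring of an object of rank one is a
division ring.
-/

open CategoryTheory CategoryTheory.Limits

universe v u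

namespace Vale.Agent.P200.E

/-- an integer valued rank function -/
structure RankFn (C : Type u) [Category.{v} C] [Preadditive C] [HasCokernels C]
    [HasBinaryBiproducts C] where
  rk : C → ℕ
  rk_epi : ∀ {M N : C} (f : M ⟶ N), Epi f → rk N ≤ rk M
  rk_coker : ∀ {M N : C} (f : M ⟶ N), rk N ≤ rk M + rk (cokernel f)
  rk_sum : ∀ M N : C, rk (M ⊞ N) = rk M + rk N

namespace RankFn

variable {C : Type u} [Category.{v} C] [Preadditive C] [HasCokernels C] [HasBinaryBiproducts C]
  (r : RankFn C)

lemma rk_iso {M N : C} (e : M ≅ N) : r.rk M = r.rk N :=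
  le_antisymm (r.rk_epi e.inv inferInstance) (r.rk_epi e.hom inferInstance)

lemma rk_of_epi_zero {M N : C} (f : M ⟶ N) (hf : Epi f) (h0 : f = 0) : r.rk N = 0 := by
  have hid : (𝟙 N) = 0 := by
    rw [← cancel_epi f]
    simp [h0]
  have hiso : N ≅ N ⊞ N :=
    { hom := biprod.inl
      inv := biprod.fst
      hom_inv_id := by simp
      inv_hom_id := by
        apply biprod.hom_ext' <;> apply biprod.hom_ext
        · simp
        · simp
        · have h1 : (biprod.inr : N ⟶ N ⊞ N) = 0 := by
            rw [← Category.id_comp (biprod.inr : N ⟶ N ⊞ N), hid]; simp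
          simp [h1]
        · have h1 : (biprod.inr : N ⟶ N ⊞ N) = 0 := by
            rw [← Category.id_comp (biprod.inr : N ⟶ N ⊞ N), hid]; simp
          simp [h1] }
  have h1 := r.rk_iso hiso
  rw [r.rk_sum] at h1
  omega

lemma rk_coker_of_epi {M N : C} (f : M ⟶ N) (hf : Epi f) : r.rk (cokernel f) = 0 := by
  refine r.rk_of_epi_zero (cokernel.π f) inferInstance ?_
  rw [← cancel_epi f]
  simp

/-- the morphisms to be inverted -/
def S : MorphismProperty C := fun M N s => r.rk (cokernel s) = 0 ∧ r.rk M = r.rk N

lemma rk_coker_comp {M N P : C} (s : M ⟶ N) (t : N ⟶ P) :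
    r.rk (cokernel (s ≫ t)) ≤ r.rk (cokernel s) + r.rk (cokernel t) := by
  let a : cokernel s ⟶ cokernel (s ≫ t) :=
    cokernel.desc s (t ≫ cokernel.π (s ≫ t)) (by rw [← Category.assoc]; exact cokernel.condition _)
  have ha : cokernel.π s ≫ a = t ≫ cokernel.π (s ≫ t) := cokernel.π_desc _ _ _
  let b : cokernel t ⟶ cokernel a :=
    cokernel.desc t (cokernel.π (s ≫ t) ≫ cokernel.π a) (by
      rw [← Category.assoc, ← ha, Category.assoc, cokernel.condition, comp_zero])
  have hb : cokernel.π t ≫ b = cokernel.π (s ≫ t) ≫ cokernel.π a := cokernel.π_desc _ _ _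
  have hbe : Epi b := by
    have : Epi (cokernel.π t ≫ b) := by
      rw [hb]; infer_instance
    exact epi_of_epi (cokernel.π t) b
  have h1 := r.rk_coker a
  have h2 := r.rk_epi b hbe
  omega

instance : (r.S).IsMultiplicative where
  id_mem M := ⟨r.rk_coker_of_epi _ inferInstance, rfl⟩
  comp_mem s t hs ht := by
    refine ⟨?_, hs.2.trans ht.2⟩
    have h := r.rk_coker_comp s t
    have h1 := hs.1
    have h2 := ht.1
    omega

instance : (r.S).HasLeftCalculusOfFractions where
  exists_leftFraction := by
    intro X Y φ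
    obtain ⟨X', s, hs, f, rfl⟩ := φ.cases
    let p : X' ⟶ X ⊞ Y := biprod.lift s (-f)
    let π := cokernel.π p
    let i1 : X ⟶ cokernel p := biprod.inl ≫ π
    let i2 : Y ⟶ cokernel p := biprod.inr ≫ π
    have hp : p = s ≫ biprod.inl - f ≫ biprod.inr := by
      apply biprod.hom_ext <;> simp [p]
    have hsq : s ≫ i1 = f ≫ i2 := by
      have h : p ≫ π = 0 := cokernel.condition p
      have h' : p ≫ π = s ≫ i1 - f ≫ i2 := by
        have : ∀ q : X' ⟶ X ⊞ Y, q = s ≫ biprod.inl - f ≫ biprod.inr →
            q ≫ π = s ≫ i1 - f ≫ i2 := by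
          rintro q rfl
          simp only [Preadditive.sub_comp, Category.assoc, i1, i2]
        exact this p hp
      exact sub_eq_zero.1 (h'.symm.trans h)
    -- the cokernel of `i2` is a quotient of the cokernel of `s`
    have hc : r.rk (cokernel i2) ≤ r.rk (cokernel s) := by
      let b : cokernel s ⟶ cokernel i2 := cokernel.desc s (i1 ≫ cokernel.π i2) (by
        rw [← Category.assoc, hsq, Category.assoc, cokernel.condition, comp_zero])
      have hb : cokernel.π s ≫ b = i1 ≫ cokernel.π i2 := cokernel.π_desc _ _ _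
      refine r.rk_epi b ?_
      refine ⟨fun {Z} g h hgh => ?_⟩
      rw [← cancel_epi (cokernel.π i2), ← cancel_epi π]
      apply biprod.hom_ext'
      · have h1 : cokernel.π s ≫ b ≫ g = cokernel.π s ≫ b ≫ h := by rw [hgh]
        rw [← Category.assoc, ← Category.assoc, hb] at h1
        simpa [i1] using h1
      · have h1 : i2 ≫ cokernel.π i2 = 0 := cokernel.condition i2
        have h2 : ∀ k : cokernel i2 ⟶ Z, biprod.inr ≫ π ≫ cokernel.π i2 ≫ k = 0 := by
          intro k
          have h3 : (i2 ≫ cokernel.π i2) ≫ k = 0 := by rw [h1, zero_comp]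
          rw [Category.assoc] at h3
          exact (Category.assoc _ _ _).symm.trans h3
        rw [h2, h2]
    refine ⟨⟨i1, i2, ⟨?_, ?_⟩⟩, ?_⟩
    · have := hs.1
      omega
    · have h1 := r.rk_coker i2
      have h2 := r.rk_coker p
      rw [r.rk_sum] at h2
      have h3 := hs.1
      have h4 := hs.2
      change r.rk Y = r.rk (cokernel p)
      omega
    · exact hsq.symm
  ext := by
    intro X' X Y f1 f2 s hs h
    let d : X ⟶ Y := f1 - f2
    have hd : s ≫ d = 0 := by simp [d, h]
    let e : cokernel s ⟶ Y := cokernel.desc s d hd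
    have he : cokernel.π s ≫ e = d := cokernel.π_desc _ _ _
    let b : cokernel d ⟶ cokernel e := cokernel.desc d (cokernel.π e) (by
      rw [← he, Category.assoc, cokernel.condition, comp_zero])
    have hb : cokernel.π d ≫ b = cokernel.π e := cokernel.π_desc _ _ _
    have hbe : Epi b := by
      have : Epi (cokernel.π d ≫ b) := by rw [hb]; infer_instance
      exact epi_of_epi (cokernel.π d) b
    refine ⟨cokernel d, cokernel.π d, ⟨r.rk_coker_of_epi _ inferInstance, ?_⟩, ?_⟩
    · have h1 := r.rk_epi (cokernel.π d) inferInstance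
      have h2 := r.rk_coker e
      have h3 := r.rk_epi b hbe
      have h4 := hs.1
      omega
    · have h1 : d ≫ cokernel.π d = 0 := cokernel.condition d
      have h2 : f1 ≫ cokernel.π d - f2 ≫ cokernel.π d = 0 := by
        rw [← Preadditive.sub_comp]; exact h1
      exact sub_eq_zero.1 h2

section division

variable {D : Type*} [Category* D] [Preadditive D] (L : C ⥤ D) [L.IsLocalization r.S] [L.Additive]

/-- a nonzero endomorphism of an object of rank one is an isomorphism in the localization -/
theorem isIso_of_ne_zero {O : C} (hO : r.rk O = 1) (φ : L.obj O ⟶ L.obj O) (hφ : φ ≠ 0) :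
    IsIso φ := by
  obtain ⟨ψ, rfl⟩ := Localization.exists_leftFraction L r.S φ
  obtain ⟨Y, f, s, hs, rfl⟩ := ψ.cases
  have hi : IsIso (L.map s) := Localization.inverts L r.S s hs
  have hY : r.rk Y = 1 := by rw [← hs.2, hO]
  have h1 := r.rk_epi (cokernel.π f) inferInstance
  have hmap : (MorphismProperty.LeftFraction.mk (W := r.S) f s hs).map L
      (Localization.inverts L r.S) = L.map f ≫ inv (L.map s) := rfl
  rcases Nat.lt_or_ge (r.rk (cokernel f)) 1 with h0 | h0
  · have hf : r.S f := ⟨by omega, by rw [hO, hY]⟩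
    have hfi : IsIso (L.map f) := Localization.inverts L r.S f hf
    rw [hmap]
    infer_instance
  · exfalso
    apply hφ
    have ht : r.S (cokernel.π f) := ⟨r.rk_coker_of_epi _ inferInstance, by omega⟩
    have hti : IsIso (L.map (cokernel.π f)) := Localization.inverts L r.S _ ht
    have hz : L.map f = 0 := by
      rw [← cancel_mono (L.map (cokernel.π f)), ← L.map_comp, cokernel.condition]
      simp
    rw [hmap, hz, zero_comp]

/-- the identity of an object of nonzero rank is nonzero in the localization -/
theorem id_ne_zero {O : C} (hO : r.rk O ≠ 0) : 𝟙 (L.obj O) ≠ 0 := by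
  intro h
  have h1 : L.map (𝟙 O) = L.map (0 : O ⟶ O) := by simpa using h
  obtain ⟨Z, s, hs, hz⟩ := (MorphismProperty.map_eq_iff_postcomp L r.S _ _).1 h1
  have hs0 : s = 0 := by simpa using hz
  have h2 : r.rk Z ≤ r.rk (cokernel s) := by
    have hc : s ≫ 𝟙 Z = 0 := by simp [hs0]
    refine r.rk_epi (cokernel.desc s (𝟙 Z) hc) ?_
    have : Epi (cokernel.π s ≫ cokernel.desc s (𝟙 Z) hc) := by
      rw [cokernel.π_desc]; infer_instance
    exact epi_of_epi (cokernel.π s) _
  have h3 := hs.1
  have h4 := hs.2
  omega

/-- the endomorphism ring of an object of rank one is a division ring -/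
@[instance_reducible]
noncomputable def endDivisionRing {O : C} (hO : r.rk O = 1) : DivisionRing (End (L.obj O)) := by
  classical
  have : Nontrivial (End (L.obj O)) := ⟨⟨𝟙 _, 0, r.id_ne_zero L (by omega)⟩⟩
  exact DivisionRing.ofIsUnitOrEqZero (fun a => by
    by_cases ha : a = 0
    · exact Or.inr ha
    · left
      have := r.isIso_of_ne_zero L hO a ha
      exact (isUnit_iff_isIso a).2 inferInstance)

end division

end RankFn

end Vale.Agent.P200.E
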