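import Vale.Agent.P200.E.Cat
import Vale.Agent.P200.E.RankLoc

/-!
# P200 / E : biproducts in the category of presentations
-/

open CategoryTheory CategoryTheory.Limits

universe u

namespace Vale.Agent.P200.E

variable {D P : Type u} [Ring D] [Ring P] {𝒮 : Sys D P}

namespace Ob

/-- the direct sum of two presentations -/
def dsum (X Y : Ob 𝒮) : Ob 𝒮 := ⟨X.m + Y.m, _, 𝒮.good_prod X.m Y.m X.N Y.N X.h Y.h⟩

/-- extension by zero on the right -/
def exL (P : Type u) [Ring P] (m m' : ℕ) : (Fin m → P) →ₗ[P] (Fin (m + m') → P) :=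
  LinearMap.pi fun j => Fin.addCases (fun i => LinearMap.proj i) (fun _ => 0) j

/-- extension by zero on the left -/
def exR (P : Type u) [Ring P] (m m' : ℕ) : (Fin m' → P) →ₗ[P] (Fin (m + m') → P) :=
  LinearMap.pi fun j => Fin.addCases (fun _ => 0) (fun i => LinearMap.proj i) j

lemma exL_castAdd (m m' : ℕ) (p : Fin m → P) (i : Fin m) :
    exL P m m' p (Fin.castAdd m' i) = p i := by simp [exL]

lemma exL_natAdd (m m' : ℕ) (p : Fin m → P) (i : Fin m') :
    exL P m m' p (Fin.natAdd m i) = 0 := by simp [exL]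

lemma exR_castAdd (m m' : ℕ) (p : Fin m' → P) (i : Fin m) :
    exR P m m' p (Fin.castAdd m' i) = 0 := by simp [exR]

lemma exR_natAdd (m m' : ℕ) (p : Fin m' → P) (i : Fin m') :
    exR P m m' p (Fin.natAdd m i) = p i := by simp [exR]

lemma funLeft_exL (m m' : ℕ) (p : Fin m → P) :
    LinearMap.funLeft P P (Fin.castAdd m') (exL P m m' p) = p := by
  funext i
  rw [LinearMap.funLeft_apply, exL_castAdd]

lemma funLeft_exL' (m m' : ℕ) (p : Fin m → P) :
    LinearMap.funLeft P P (Fin.natAdd m) (exL P m m' p) = 0 := by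
  funext i
  rw [LinearMap.funLeft_apply, exL_natAdd]
  rfl

lemma funLeft_exR (m m' : ℕ) (p : Fin m' → P) :
    LinearMap.funLeft P P (Fin.natAdd m) (exR P m m' p) = p := by
  funext i
  rw [LinearMap.funLeft_apply, exR_natAdd]

lemma funLeft_exR' (m m' : ℕ) (p : Fin m' → P) :
    LinearMap.funLeft P P (Fin.castAdd m') (exR P m m' p) = 0 := by
  funext i
  rw [LinearMap.funLeft_apply, exR_castAdd]
  rfl

lemma exL_const (C : D →+* P) (m m' : ℕ) (v : Fin m → D) :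
    (exL P m m' fun j => C (v j)) =
      fun j => C (Fin.append v (0 : Fin m' → D) j) := by
  funext j
  refine Fin.addCases (fun i => ?_) (fun i => ?_) j
  · rw [exL_castAdd, Fin.append_left]
  · rw [exL_natAdd, Fin.append_right, Pi.zero_apply, map_zero]

lemma exR_const (C : D →+* P) (m m' : ℕ) (v : Fin m' → D) :
    (exR P m m' fun j => C (v j)) =
      fun j => C (Fin.append (0 : Fin m → D) v j) := by
  funext j
  refine Fin.addCases (fun i => ?_) (fun i => ?_) j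
  · rw [exR_castAdd, Fin.append_left, Pi.zero_apply, map_zero]
  · rw [exR_natAdd, Fin.append_right]

lemma ex_total (m m' : ℕ) (p : Fin (m + m') → P) :
    exL P m m' (LinearMap.funLeft P P (Fin.castAdd m') p) +
      exR P m m' (LinearMap.funLeft P P (Fin.natAdd m) p) = p := by
  funext j
  refine Fin.addCases (fun i => ?_) (fun i => ?_) j
  · rw [Pi.add_apply, exL_castAdd, exR_castAdd, add_zero]
    rfl
  · rw [Pi.add_apply, exL_natAdd, exR_natAdd, zero_add]
    rfl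

/-- first inclusion -/
def inl (X Y : Ob 𝒮) : X ⟶ dsum X Y :=
  ofLin (Submodule.mapQ _ _ (exL P X.m Y.m) (by
    intro p hp
    refine ⟨?_, ?_⟩
    · change LinearMap.funLeft P P (Fin.castAdd Y.m) (exL P X.m Y.m p) ∈ X.N
      rw [funLeft_exL]
      exact hp
    · change LinearMap.funLeft P P (Fin.natAdd X.m) (exL P X.m Y.m p) ∈ Y.N
      rw [funLeft_exL']
      exact zero_mem _)) (fun v => by
    exact ⟨Fin.append v (0 : Fin Y.m → D),
      congrArg (dsum X Y).N.mkQ (exL_const 𝒮.C X.m Y.m v)⟩)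

/-- second inclusion -/
def inr (X Y : Ob 𝒮) : Y ⟶ dsum X Y :=
  ofLin (Submodule.mapQ _ _ (exR P X.m Y.m) (by
    intro p hp
    refine ⟨?_, ?_⟩
    · change LinearMap.funLeft P P (Fin.castAdd Y.m) (exR P X.m Y.m p) ∈ X.N
      rw [funLeft_exR']
      exact zero_mem _
    · change LinearMap.funLeft P P (Fin.natAdd X.m) (exR P X.m Y.m p) ∈ Y.N
      rw [funLeft_exR]
      exact hp)) (fun v => by
    exact ⟨Fin.append (0 : Fin X.m → D) v,
      congrArg (dsum X Y).N.mkQ (exR_const 𝒮.C X.m Y.m v)⟩)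

/-- first projection -/
def fst (X Y : Ob 𝒮) : dsum X Y ⟶ X :=
  ofLin (Submodule.mapQ _ _ (LinearMap.funLeft P P (Fin.castAdd Y.m)) (fun _ hp => hp.1))
    (fun v => ⟨fun i => v (Fin.castAdd Y.m i), rfl⟩)

/-- second projection -/
def snd (X Y : Ob 𝒮) : dsum X Y ⟶ Y :=
  ofLin (Submodule.mapQ _ _ (LinearMap.funLeft P P (Fin.natAdd X.m)) (fun _ hp => hp.2))
    (fun v => ⟨fun i => v (Fin.natAdd X.m i), rfl⟩)

lemma mkQ_ext {X Y : Ob 𝒮} {f g : X ⟶ Y} (h : ∀ p, lin f (X.N.mkQ p) = lin g (X.N.mkQ p)) :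
    f = g := by
  apply hom_ext
  refine LinearMap.ext fun x => ?_
  obtain ⟨p, rfl⟩ := X.N.mkQ_surjective x
  exact h p

lemma inl_fst (X Y : Ob 𝒮) : inl X Y ≫ fst X Y = 𝟙 X := by
  apply mkQ_ext
  intro p
  change X.N.mkQ (LinearMap.funLeft P P (Fin.castAdd Y.m) (exL P X.m Y.m p)) = X.N.mkQ p
  rw [funLeft_exL]

lemma inl_snd (X Y : Ob 𝒮) : inl X Y ≫ snd X Y = 0 := by
  apply mkQ_ext
  intro p
  change Y.N.mkQ (LinearMap.funLeft P P (Fin.natAdd X.m) (exL P X.m Y.m p)) = 0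
  rw [funLeft_exL', map_zero]

lemma inr_fst (X Y : Ob 𝒮) : inr X Y ≫ fst X Y = 0 := by
  apply mkQ_ext
  intro p
  change X.N.mkQ (LinearMap.funLeft P P (Fin.castAdd Y.m) (exR P X.m Y.m p)) = 0
  rw [funLeft_exR', map_zero]

lemma inr_snd (X Y : Ob 𝒮) : inr X Y ≫ snd X Y = 𝟙 Y := by
  apply mkQ_ext
  intro p
  change Y.N.mkQ (LinearMap.funLeft P P (Fin.natAdd X.m) (exR P X.m Y.m p)) = Y.N.mkQ p
  rw [funLeft_exR]

lemma dsum_total (X Y : Ob 𝒮) :
    fst X Y ≫ inl X Y + snd X Y ≫ inr X Y = 𝟙 (dsum X Y) := by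
  apply mkQ_ext
  intro p
  exact (map_add (dsum X Y).N.mkQ _ _).symm.trans (congrArg (dsum X Y).N.mkQ (ex_total X.m Y.m p))

/-- the bicone -/
def bicone (X Y : Ob 𝒮) : BinaryBicone X Y where
  pt := dsum X Y
  fst := fst X Y
  snd := snd X Y
  inl := inl X Y
  inr := inr X Y
  inl_fst := inl_fst X Y
  inl_snd := inl_snd X Y
  inr_fst := inr_fst X Y
  inr_snd := inr_snd X Y

instance : HasBinaryBiproducts (Ob 𝒮) where
  has_binary_biproduct X Y := hasBinaryBiproduct_of_total (bicone X Y) (dsum_total X Y)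

/-- the abstract biproduct is isomorphic to the concrete one -/
noncomputable def dsumIso (X Y : Ob 𝒮) : dsum X Y ≅ X ⊞ Y :=
  biprod.uniqueUpToIso X Y (isBinaryBilimitOfTotal (bicone X Y) (dsum_total X Y))

/-- the abstract cokernel is isomorphic to the concrete one -/
noncomputable def cokerIso {X Y : Ob 𝒮} (f : X ⟶ Y) : coker f ≅ cokernel f :=
  IsColimit.coconePointUniqueUpToIso (isColimitCoker f) (colimit.isColimit _)

lemma surjective_of_epi {X Y : Ob 𝒮} (f : X ⟶ Y) (hf : Epi f) : Function.Surjective (lin f) := by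
  have h1 : cokerπ f = 0 := by
    rw [← cancel_epi f, comp_cokerπ, comp_zero]
  intro y
  obtain ⟨p, rfl⟩ := Y.N.mkQ_surjective y
  have h2 : lin (cokerπ f) (Y.N.mkQ p) = 0 := by rw [h1]; rfl
  have h3 : p ∈ rangeSub f := (Submodule.Quotient.mk_eq_zero (rangeSub f)).1 h2
  exact h3

lemma rangeSub_of_epi {X Y : Ob 𝒮} (f : X ⟶ Y) (hf : Epi f) : rangeSub f = ⊤ := by
  rw [eq_top_iff]
  intro p _
  obtain ⟨x, hx⟩ := surjective_of_epi f hf (Y.N.mkQ p)
  exact ⟨x, hx⟩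

/-- the rank function -/
structure RkData (𝒮 : Sys D P) where
  rk : Ob 𝒮 → ℕ
  rk_coker : ∀ {X Y : Ob 𝒮} (f : X ⟶ Y), rk Y ≤ rk X + rk (coker f)
  rk_dsum : ∀ X Y : Ob 𝒮, rk (dsum X Y) = rk X + rk Y
  rk_top : ∀ X : Ob 𝒮, X.N = ⊤ → rk X = 0

namespace RkData

variable (ρ : RkData 𝒮)

lemma rk_epi {X Y : Ob 𝒮} (f : X ⟶ Y) (hf : Epi f) : ρ.rk Y ≤ ρ.rk X := by
  have h1 := ρ.rk_coker f
  have h2 : ρ.rk (coker f) = 0 := ρ.rk_top _ (rangeSub_of_epi f hf)
  omega

lemma rk_iso {X Y : Ob 𝒮} (e : X ≅ Y) : ρ.rk X = ρ.rk Y :=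
  le_antisymm (ρ.rk_epi e.inv inferInstance) (ρ.rk_epi e.hom inferInstance)

/-- the abstract rank function -/
noncomputable def toRankFn : RankFn (Ob 𝒮) where
  rk := ρ.rk
  rk_epi f hf := ρ.rk_epi f hf
  rk_coker f := by
    have h1 := ρ.rk_coker f
    rwa [ρ.rk_iso (cokerIso f)] at h1
  rk_sum X Y := by
    rw [← ρ.rk_iso (dsumIso X Y), ρ.rk_dsum]

end RkData

end Ob

end Vale.Agent.P200.E
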