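import Vale.Agent.P200.E.Loc2

/-!
# P200 / E : coordinates in the localization and the rank formula
-/

open CategoryTheory CategoryTheory.Limits MulOpposite

universe v u

namespace Vale.Agent.P200.E

section coord

variable {D : Type*} [Category* D] [Preadditive D]

/-- an endomorphism as an element of the opposite of the endomorphism ring -/
abbrev opp {A : D} (f : A ⟶ A) : (End A)ᵐᵒᵖ := MulOpposite.op f

/-- an element of the opposite of the endomorphism ring as a morphism -/
abbrev arr {A : D} (f : (End A)ᵐᵒᵖ) : A ⟶ A := MulOpposite.unop f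

/-- coordinates of `T` with respect to `A`: `T` is a biproduct of copies of `A` -/
structure Coord (A T : D) (ι : Type*) [Fintype ι] [DecidableEq ι] where
  a : ι → (A ⟶ T)
  b : ι → (T ⟶ A)
  orth : ∀ k l, a k ≫ b l = if k = l then 𝟙 A else 0
  total : ∑ k, b k ≫ a k = 𝟙 T

namespace Coord

variable {A T : D} {ι : Type*} [Fintype ι] [DecidableEq ι]

/-- transport along an isomorphism -/
def ofIso (c : Coord A T ι) {T' : D} (e : T ≅ T') : Coord A T' ι where
  a k := c.a k ≫ e.hom
  b k := e.inv ≫ c.b k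
  orth k l := by simp [c.orth]
  total := by
    have : ∀ k, (e.inv ≫ c.b k) ≫ c.a k ≫ e.hom = e.inv ≫ (c.b k ≫ c.a k) ≫ e.hom := by
      intro k; simp
    rw [Finset.sum_congr rfl fun k _ => this k, ← Preadditive.comp_sum, ← Preadditive.sum_comp,
      c.total]
    simp

/-- the coordinate isomorphism -/
noncomputable def equiv (c : Coord A T ι) : (A ⟶ T) ≃ₗ[(End A)ᵐᵒᵖ] (ι → (End A)ᵐᵒᵖ) where
  toFun v k := opp (v ≫ c.b k)
  invFun u := ∑ k, arr (u k) ≫ c.a k
  map_add' v w := by
    funext k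
    change opp ((v + w) ≫ c.b k) = opp (v ≫ c.b k) + opp (w ≫ c.b k)
    rw [Preadditive.add_comp]
    rfl
  map_smul' e v := by
    funext k
    change opp ((arr e ≫ v) ≫ c.b k) = e * opp (v ≫ c.b k)
    rw [Category.assoc]
    rfl
  left_inv v := by
    change ∑ k, (v ≫ c.b k) ≫ c.a k = v
    simp_rw [Category.assoc]
    rw [← Preadditive.comp_sum, c.total, Category.comp_id]
  right_inv u := by
    funext l
    change opp ((∑ k, arr (u k) ≫ c.a k) ≫ c.b l) = u l
    rw [Preadditive.sum_comp]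
    simp_rw [Category.assoc, c.orth]
    rw [Finset.sum_eq_single l]
    · simp
    · intro k _ hk
      simp [hk]
    · simp

lemma equiv_apply (c : Coord A T ι) (v : A ⟶ T) (k : ι) :
    c.equiv v k = opp (v ≫ c.b k) := rfl

/-- linear functionals are morphisms -/
lemma exists_hom (c : Coord A T ι) (φ : (A ⟶ T) →ₗ[(End A)ᵐᵒᵖ] (End A)ᵐᵒᵖ) :
    ∃ h : T ⟶ A, ∀ v : A ⟶ T, opp (v ≫ h) = φ v := by
  refine ⟨∑ k, c.b k ≫ arr (φ (c.a k)), fun v => ?_⟩
  have h1 : v = ∑ k, opp (v ≫ c.b k) • c.a k := by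
    change v = ∑ k, (v ≫ c.b k) ≫ c.a k
    simp_rw [Category.assoc]
    rw [← Preadditive.comp_sum, c.total, Category.comp_id]
  conv_rhs => rw [h1, map_sum]
  rw [Preadditive.comp_sum]
  have h2 : ∀ f : ι → (A ⟶ A), opp (∑ k, f k) = ∑ k, opp (f k) := fun f =>
    map_sum (MulOpposite.opAddEquiv : End A ≃+ (End A)ᵐᵒᵖ) f Finset.univ
  rw [h2]
  refine Finset.sum_congr rfl fun k _ => ?_
  rw [map_smul]
  change opp (v ≫ c.b k ≫ arr (φ (c.a k))) = opp (v ≫ c.b k) * φ (c.a k)
  rw [← Category.assoc]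
  rfl

/-- morphisms are determined on vectors -/
lemma hom_eq_zero (c : Coord A T ι) {T' : D} (h : T ⟶ T') (h0 : ∀ v : A ⟶ T, v ≫ h = 0) : h = 0 := by
  rw [← Category.id_comp h, ← c.total, Preadditive.sum_comp]
  refine Finset.sum_eq_zero fun k _ => ?_
  rw [Category.assoc, h0, comp_zero]

end Coord

end coord

section exact

variable {D : Type*} [Category* D] [Preadditive D] {A T1 T2 : D} {ι1 ι2 : Type*} [Fintype ι1]
  [DecidableEq ι1] [Fintype ι2] [DecidableEq ι2]

/-- the dimension formula for a cokernel in the localization -/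
theorem finrank_coker (hdiv : ∀ a : End A, IsUnit a ∨ a = 0) (hnt : 𝟙 A ≠ 0)
    (c1 : Coord A T1 ι1) (c2 : Coord A T2 ι2)
    (q : T1 ⟶ T2) (hq : Epi q) (W : Submodule (End A)ᵐᵒᵖ (A ⟶ T1))
    (hW : ∀ w ∈ W, w ≫ q = 0)
    (hW' : ∀ h : T1 ⟶ A, (∀ w ∈ W, w ≫ h = 0) → ∃ h' : T2 ⟶ A, q ≫ h' = h) :
    Fintype.card ι2 + Module.finrank (End A)ᵐᵒᵖ W = Fintype.card ι1 := by
  have : Nontrivial (End A) := ⟨⟨𝟙 A, 0, hnt⟩⟩
  let _ : DivisionRing (End A) := DivisionRing.ofIsUnitOrEqZero hdiv
  have hf1 : Module.finrank (End A)ᵐᵒᵖ (A ⟶ T1) = Fintype.card ι1 := by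
    rw [c1.equiv.finrank_eq, Module.finrank_fintype_fun_eq_card]
  have hf2 : Module.finrank (End A)ᵐᵒᵖ (A ⟶ T2) = Fintype.card ι2 := by
    rw [c2.equiv.finrank_eq, Module.finrank_fintype_fun_eq_card]
  have : Module.Finite (End A)ᵐᵒᵖ (A ⟶ T1) := Module.Finite.equiv c1.equiv.symm
  let Q : (A ⟶ T1) →ₗ[(End A)ᵐᵒᵖ] (A ⟶ T2) :=
    { toFun := fun v => v ≫ q
      map_add' := fun v w => Preadditive.add_comp _ _ _ _ _ _
      map_smul' := fun e v => by
        change (arr e ≫ v) ≫ q = arr e ≫ v ≫ q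
        rw [Category.assoc] }
  have hker : LinearMap.ker Q = W := by
    apply le_antisymm
    · intro v hv
      by_contra hvW
      obtain ⟨φ, hφv, hφW⟩ := Submodule.exists_le_ker_of_notMem hvW
      obtain ⟨h, hh⟩ := c1.exists_hom φ
      obtain ⟨h', hh'⟩ := hW' h (fun w hw => by
        have h1 : φ w = 0 := hφW hw
        have h2 := hh w
        rw [h1] at h2
        exact MulOpposite.op_injective h2)
      apply hφv
      rw [← hh v, ← hh', ← Category.assoc]
      have hv' : v ≫ q = 0 := hv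
      rw [hv', zero_comp]
      rfl
    · intro w hw
      exact hW w hw
  have hsurj : LinearMap.range Q = ⊤ := by
    by_contra hne
    obtain ⟨φ, hφ0, hφ⟩ := Submodule.exists_le_ker_of_lt_top _ (lt_top_iff_ne_top.2 hne)
    obtain ⟨h, hh⟩ := c2.exists_hom φ
    apply hφ0
    have h1 : q ≫ h = 0 := by
      apply c1.hom_eq_zero
      intro v
      have h2 : φ (v ≫ q) = 0 := hφ ⟨v, rfl⟩
      have h3 := hh (v ≫ q)
      rw [h2] at h3
      rw [← Category.assoc]
      exact MulOpposite.op_injective h3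
    have h2 : h = 0 := by
      rw [← cancel_epi q, h1, comp_zero]
    apply LinearMap.ext
    intro v
    rw [← hh v, h2, comp_zero]
    rfl
  have h1 := LinearMap.finrank_range_add_finrank_ker Q
  rw [hker, hsurj, finrank_top, hf1, hf2] at h1
  exact h1

end exact

namespace RankFn

variable {C : Type u} [Category.{v} C] [Preadditive C] [HasCokernels C] [HasBinaryBiproducts C]
  (r : RankFn C) {D : Type*} [Category* D] [Preadditive D] (L : C ⥤ D) [L.IsLocalization r.S]
  [L.Additive]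

include r

/-- **Choice of a basis.** -/
theorem exists_basis {O Z : C} (hO : r.rk O = 1) {ι : Type*} (g : ι → (O ⟶ Z))
    (hg : ∀ {T : D} (h : L.obj Z ⟶ T), (∀ i, L.map (g i) ≫ h = 0) → h = 0) (n : ℕ) :
    ∀ (Z' : C) (q : Z ⟶ Z'), Epi q → r.rk Z' = n → ∃ (P : C) (σ : P ⟶ Z), r.S (σ ≫ q) ∧
      Nonempty (Coord (L.obj O) (L.obj P) (Fin n)) := by
  induction n with
  | zero =>
    intro Z' q hq hZ'
    have hid : 𝟙 (cokernel (𝟙 O)) = 0 := by
      have h1 : cokernel.π (𝟙 O) = 0 := by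
        have h2 := cokernel.condition (𝟙 O)
        rwa [Category.id_comp] at h2
      rw [← cancel_epi (cokernel.π (𝟙 O)), h1, comp_zero, zero_comp]
    have hrk : r.rk (cokernel (𝟙 O)) = 0 := r.rk_coker_of_epi _ inferInstance
    refine ⟨cokernel (𝟙 O), 0, ⟨?_, by rw [hrk, hZ']⟩, ⟨?_⟩⟩
    · have h1 := r.rk_epi (cokernel.π ((0 : cokernel (𝟙 O) ⟶ Z) ≫ q)) inferInstance
      omega
    · exact
        { a := fun k => k.elim0
          b := fun k => k.elim0
          orth := fun k => k.elim0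
          total := by
            rw [← L.map_id, hid]
            simp }
  | succ n ih =>
    intro Z' q hq hZ'
    have hex : ∃ i, L.map (g i ≫ q) ≠ 0 := by
      by_contra hne
      push Not at hne
      have h1 : L.map q = 0 := hg (L.map q) (fun i => by rw [← L.map_comp]; exact hne i)
      have h2 : Epi (L.map q) := r.epi_map L q (r.rk_coker_of_epi q hq)
      have h3 : 𝟙 (L.obj Z') = 0 := by
        rw [← cancel_epi (L.map q), h1, comp_zero, zero_comp]
      have h4 := r.rk_eq_zero_of_id L h3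
      omega
    obtain ⟨i, hi⟩ := hex
    have h1 := r.rk_coker (g i ≫ q)
    have h2 := r.rk_epi (cokernel.π (g i ≫ q)) inferInstance
    have h3 : r.rk (cokernel (g i ≫ q)) ≠ n + 1 := by
      intro h4
      apply hi
      have h5 : r.S (cokernel.π (g i ≫ q)) :=
        ⟨r.rk_coker_of_epi _ inferInstance, by omega⟩
      have h6 := r.isIso_map L _ h5
      rw [← cancel_mono (L.map (cokernel.π (g i ≫ q))), ← L.map_comp, cokernel.condition]
      simp
    obtain ⟨P1, σ1, hσ1, ⟨c1⟩⟩ := ih (cokernel (g i ≫ q)) (q ≫ cokernel.π (g i ≫ q))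
      inferInstance (by omega)
    have h0 : (g i ≫ q) ≫ cokernel.π (biprod.desc (g i) σ1 ≫ q) = 0 := by
      have h5 : (g i ≫ q) = biprod.inl ≫ biprod.desc (g i) σ1 ≫ q := by
        rw [← Category.assoc, biprod.inl_desc]
      rw [h5, Category.assoc, cokernel.condition, comp_zero]
    have h0' : σ1 ≫ q ≫ cokernel.π (biprod.desc (g i) σ1 ≫ q) = 0 := by
      have h5 : (σ1 ≫ q) = biprod.inr ≫ biprod.desc (g i) σ1 ≫ q := by
        rw [← Category.assoc, biprod.inr_desc]
      rw [← Category.assoc, h5, Category.assoc, cokernel.condition, comp_zero]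
    let e : cokernel (g i ≫ q) ⟶ cokernel (biprod.desc (g i) σ1 ≫ q) :=
      cokernel.desc _ _ h0
    have he : cokernel.π (g i ≫ q) ≫ e = cokernel.π (biprod.desc (g i) σ1 ≫ q) :=
      cokernel.π_desc _ _ _
    let e' : cokernel (σ1 ≫ q ≫ cokernel.π (g i ≫ q)) ⟶
        cokernel (biprod.desc (g i) σ1 ≫ q) := cokernel.desc _ e (by
      rw [Category.assoc, Category.assoc, he, h0'])
    have he' : cokernel.π (σ1 ≫ q ≫ cokernel.π (g i ≫ q)) ≫ e' = e := cokernel.π_desc _ _ _
    have hepi : Epi e' := by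
      have h5 : Epi (cokernel.π (g i ≫ q) ≫ e) := by rw [he]; infer_instance
      have h6 : Epi e := epi_of_epi (cokernel.π (g i ≫ q)) e
      have h7 : Epi (cokernel.π (σ1 ≫ q ≫ cokernel.π (g i ≫ q)) ≫ e') := by rw [he']; exact h6
      exact epi_of_epi (cokernel.π (σ1 ≫ q ≫ cokernel.π (g i ≫ q))) e'
    refine ⟨O ⊞ P1, biprod.desc (g i) σ1, ⟨?_, ?_⟩, ⟨?_⟩⟩
    · have h5 := r.rk_epi e' hepi
      have h6 := hσ1.1
      omega
    · rw [r.rk_sum, hO, hσ1.2]
      omega
    · refine
        { a := Fin.cons (L.map biprod.inl) (fun k => c1.a k ≫ L.map biprod.inr)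
          b := Fin.cons (L.map biprod.fst) (fun k => L.map biprod.snd ≫ c1.b k)
          orth := ?_
          total := ?_ }
      · intro k l
        refine Fin.cases ?_ (fun k => ?_) k <;> refine Fin.cases ?_ (fun l => ?_) l
        · rw [Fin.cons_zero, Fin.cons_zero, ← L.map_comp]
          simp
        · rw [Fin.cons_zero, Fin.cons_succ, ← Category.assoc, ← L.map_comp]
          simp [(Fin.succ_ne_zero l).symm]
        · rw [Fin.cons_zero, Fin.cons_succ, Category.assoc, ← L.map_comp]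
          simp [Fin.succ_ne_zero k]
        · rw [Fin.cons_succ, Fin.cons_succ]
          have h5 : (c1.a k ≫ L.map biprod.inr) ≫ L.map (biprod.snd : O ⊞ P1 ⟶ P1) ≫ c1.b l =
              c1.a k ≫ L.map (biprod.inr ≫ (biprod.snd : O ⊞ P1 ⟶ P1)) ≫ c1.b l := by
            simp only [L.map_comp, Category.assoc]
          rw [h5]
          simp [c1.orth, Fin.succ_inj]
      · rw [Fin.sum_univ_succ]
        simp only [Fin.cons_zero, Fin.cons_succ]
        have h5 : ∀ k, (L.map (biprod.snd : O ⊞ P1 ⟶ P1) ≫ c1.b k) ≫ c1.a k ≫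
            L.map (biprod.inr : P1 ⟶ O ⊞ P1) =
            L.map (biprod.snd : O ⊞ P1 ⟶ P1) ≫ (c1.b k ≫ c1.a k) ≫
            L.map (biprod.inr : P1 ⟶ O ⊞ P1) := by
          intro k; simp
        rw [Finset.sum_congr rfl fun k _ => h5 k, ← Preadditive.comp_sum, ← Preadditive.sum_comp,
          c1.total, Category.id_comp, ← L.map_comp, ← L.map_comp, ← L.map_add, biprod.total,
          L.map_id]

/-- an object with jointly epimorphic maps from `O` has coordinates -/
theorem exists_coord {O Z : C} (hO : r.rk O = 1) {ι : Type*} (g : ι → (O ⟶ Z))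
    (hg : ∀ {T : D} (h : L.obj Z ⟶ T), (∀ i, L.map (g i) ≫ h = 0) → h = 0) :
    Nonempty (Coord (L.obj O) (L.obj Z) (Fin (r.rk Z))) := by
  obtain ⟨P, σ, hσ, ⟨c⟩⟩ := r.exists_basis L hO g hg (r.rk Z) Z (𝟙 Z) inferInstance rfl
  rw [Category.comp_id] at hσ
  have := r.isIso_map L σ hσ
  exact ⟨c.ofIso (asIso (L.map σ))⟩

end RankFn

end Vale.Agent.P200.E
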