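import Vale.Agent.P200.E.RankLoc

/-!
# P200 / E : localization at a rank function, second part

Epimorphisms, common denominators, cokernels, coordinates and the rank formula.
-/

open CategoryTheory CategoryTheory.Limits

universe v u

namespace Vale.Agent.P200.E

namespace RankFn

variable {C : Type u} [Category.{v} C] [Preadditive C] [HasCokernels C] [HasBinaryBiproducts C]
  (r : RankFn C)

section loc

variable {D : Type*} [Category* D] [Preadditive D] (L : C ⥤ D) [L.IsLocalization r.S] [L.Additive]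

include r

/-- every morphism is a left fraction -/
lemma exists_frac {X Y : C} (φ : L.obj X ⟶ L.obj Y) :
    ∃ (Z : C) (f : X ⟶ Z) (s : Y ⟶ Z), r.S s ∧ φ ≫ L.map s = L.map f := by
  obtain ⟨ψ, rfl⟩ := Localization.exists_leftFraction L r.S φ
  obtain ⟨Z, f, s, hs, rfl⟩ := ψ.cases
  exact ⟨Z, f, s, hs, MorphismProperty.LeftFraction.map_comp_map_s _ L (Localization.inverts L r.S)⟩

lemma isIso_map {X Y : C} (s : X ⟶ Y) (hs : r.S s) : IsIso (L.map s) :=
  Localization.inverts L r.S s hs

/-- a morphism is zero in the localization iff it is killed by some `t` -/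
lemma map_eq_zero {X Y : C} (f : X ⟶ Y) (h : L.map f = 0) :
    ∃ (Z : C) (t : Y ⟶ Z), r.S t ∧ f ≫ t = 0 := by
  have h1 : L.map f = L.map 0 := by simpa using h
  obtain ⟨Z, s, hs, hz⟩ := (MorphismProperty.map_eq_iff_postcomp L r.S _ _).1 h1
  exact ⟨Z, s, hs, by simpa using hz⟩

/-- cokernel projections out of objects of rank zero are inverted -/
lemma S_cokernel_π {X Y : C} (h : X ⟶ Y) (h0 : r.rk X = 0) : r.S (cokernel.π h) := by
  refine ⟨r.rk_coker_of_epi _ inferInstance, ?_⟩
  have h1 := r.rk_epi (cokernel.π h) inferInstance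
  have h2 := r.rk_coker h
  omega

/-- a morphism whose cokernel has rank zero becomes an epimorphism -/
lemma epi_map {X Y : C} (g : X ⟶ Y) (hg : r.rk (cokernel g) = 0) : Epi (L.map g) := by
  apply Preadditive.epi_of_cancel_zero
  intro T a ha
  have := Localization.essSurj L r.S
  let e : L.obj (L.objPreimage T) ≅ T := L.objObjPreimageIso T
  obtain ⟨Z, f, s, hs, hfs⟩ := r.exists_frac L (a ≫ e.inv)
  have hi := r.isIso_map L s hs
  have h0 : L.map (g ≫ f) = 0 := by
    rw [L.map_comp, ← hfs, ← Category.assoc, ← Category.assoc, ha]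
    simp
  obtain ⟨Z', t, ht, hz⟩ := r.map_eq_zero L _ h0
  have hti := r.isIso_map L t ht
  have hz' : g ≫ (f ≫ t) = 0 := by rw [← Category.assoc, hz]
  let k : cokernel g ⟶ Z' := cokernel.desc g (f ≫ t) hz'
  have hk : cokernel.π g ≫ k = f ≫ t := cokernel.π_desc _ _ _
  have hp := r.S_cokernel_π k hg
  have hpi := r.isIso_map L _ hp
  have h1 : (f ≫ t) ≫ cokernel.π k = 0 := by
    rw [← hk, Category.assoc, cokernel.condition, comp_zero]
  have h2 : L.map f ≫ L.map t ≫ L.map (cokernel.π k) = 0 := by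
    rw [← L.map_comp, ← L.map_comp, ← Category.assoc, h1, L.map_zero]
  have h3 : L.map f = 0 := by
    rw [← cancel_mono (L.map t ≫ L.map (cokernel.π k)), h2, zero_comp]
  have h4 : a ≫ e.inv = 0 := by
    rw [← cancel_mono (L.map s), hfs, h3, zero_comp]
  rw [← cancel_mono e.inv, h4, zero_comp]

/-- a morphism that becomes an epimorphism has a cokernel of rank zero -/
lemma rk_coker_of_epi_map {X Y : C} (g : X ⟶ Y) (hg : Epi (L.map g)) :
    r.rk (cokernel g) = 0 := by
  have h1 : L.map (cokernel.π g) = 0 := by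
    rw [← cancel_epi (L.map g), ← L.map_comp, cokernel.condition]
    simp
  obtain ⟨Z, t, ht, hz⟩ := r.map_eq_zero L _ h1
  have h2 : t = 0 := by
    rw [← cancel_epi (cokernel.π g), hz, comp_zero]
  have h3 : r.rk Z = 0 := by
    have hc : t ≫ 𝟙 Z = 0 := by simp [h2]
    have h4 : r.rk Z ≤ r.rk (cokernel t) := by
      refine r.rk_epi (cokernel.desc t (𝟙 Z) hc) ?_
      have : Epi (cokernel.π t ≫ cokernel.desc t (𝟙 Z) hc) := by
        rw [cokernel.π_desc]; infer_instance
      exact epi_of_epi (cokernel.π t) _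
    have := ht.1
    omega
  rw [ht.2, h3]

/-- an object that becomes zero has rank zero -/
lemma rk_eq_zero_of_id {X : C} (h : 𝟙 (L.obj X) = 0) : r.rk X = 0 := by
  by_contra h0
  exact r.id_ne_zero L h0 h

/-- `L (coker g)` is a cokernel of `L g` -/
lemma exists_desc {X Y : C} (g : X ⟶ Y) {T : D} (φ : L.obj Y ⟶ T) (h : L.map g ≫ φ = 0) :
    ∃ ψ : L.obj (cokernel g) ⟶ T, L.map (cokernel.π g) ≫ ψ = φ := by
  have := Localization.essSurj L r.S
  let e : L.obj (L.objPreimage T) ≅ T := L.objObjPreimageIso T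
  obtain ⟨Z, f, s, hs, hfs⟩ := r.exists_frac L (φ ≫ e.inv)
  have hi := r.isIso_map L s hs
  have h0 : L.map (g ≫ f) = 0 := by
    rw [L.map_comp, ← hfs, ← Category.assoc, ← Category.assoc, h]
    simp
  obtain ⟨Z', t, ht, hz⟩ := r.map_eq_zero L _ h0
  have hti := r.isIso_map L t ht
  have hz' : g ≫ (f ≫ t) = 0 := by rw [← Category.assoc, hz]
  let k : cokernel g ⟶ Z' := cokernel.desc g (f ≫ t) hz'
  have hk : cokernel.π g ≫ k = f ≫ t := cokernel.π_desc _ _ _
  refine ⟨L.map k ≫ inv (L.map t) ≫ inv (L.map s) ≫ e.hom, ?_⟩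
  rw [← Category.assoc, ← L.map_comp, hk, L.map_comp]
  simp only [Category.assoc, IsIso.hom_inv_id_assoc]
  rw [← hfs]
  simp

/-- common denominators -/
lemma exists_common {J : Type*} [Finite J] {X Y : C} (a : J → (L.obj X ⟶ L.obj Y)) :
    ∃ (Z : C) (s : Y ⟶ Z) (f : J → (X ⟶ Z)), r.S s ∧ ∀ j, a j ≫ L.map s = L.map (f j) := by
  classical
  cases nonempty_fintype J
  suffices h : ∀ t : Finset J, ∃ (Z : C) (s : Y ⟶ Z) (f : J → (X ⟶ Z)), r.S s ∧
      ∀ j ∈ t, a j ≫ L.map s = L.map (f j) by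
    obtain ⟨Z, s, f, hs, hf⟩ := h Finset.univ
    exact ⟨Z, s, f, hs, fun j => hf j (Finset.mem_univ j)⟩
  intro t
  induction t using Finset.induction_on with
  | empty => exact ⟨Y, 𝟙 Y, fun _ => 0, MorphismProperty.id_mem _ _, by simp⟩
  | insert i t hi ih =>
    obtain ⟨Z, s, f, hs, hf⟩ := ih
    obtain ⟨Z0, f0, s0, hs0, hf0⟩ := r.exists_frac L (a i)
    obtain ⟨ψ, hψ⟩ := MorphismProperty.RightFraction.exists_leftFraction
      (MorphismProperty.RightFraction.mk (W := r.S) s0 hs0 s)
    obtain ⟨Z', v, w, hw, rfl⟩ := ψ.cases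
    simp only at hψ
    refine ⟨Z', s ≫ w, fun j => if j = i then f0 ≫ v else f j ≫ w,
      MorphismProperty.comp_mem _ _ _ hs hw, ?_⟩
    intro j hj
    by_cases hji : j = i
    · subst hji
      simp only [if_true]
      rw [hψ, L.map_comp, ← Category.assoc, hf0, ← L.map_comp]
    · simp only [if_neg hji]
      rw [L.map_comp, ← Category.assoc, hf j (Finset.mem_of_mem_insert_of_ne hj hji),
        ← L.map_comp]

/-- natural endomorphisms are central -/
lemma comm_natural (z : ∀ X : C, X ⟶ X) (hz : ∀ {X Y : C} (f : X ⟶ Y), f ≫ z Y = z X ≫ f)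
    {X Y : C} (a : L.obj X ⟶ L.obj Y) : a ≫ L.map (z Y) = L.map (z X) ≫ a := by
  obtain ⟨Z, f, s, hs, hfs⟩ := r.exists_frac L a
  have hi := r.isIso_map L s hs
  rw [← cancel_mono (L.map s), Category.assoc, Category.assoc, hfs, ← L.map_comp, ← L.map_comp,
    ← hz s, ← hz f, L.map_comp, L.map_comp, ← Category.assoc, hfs]

end loc

end RankFn

end Vale.Agent.P200.E
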