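import Vale.Agent.P200.E.CatBip
import Vale.Agent.P200.E.Coord

/-!
# P200 / E : powers `X^I`, quotients by constants, coordinates of `L (X^I)`
-/

open CategoryTheory CategoryTheory.Limits

universe u

namespace Vale.Agent.P200.E

variable {D P : Type u} [Ring D] [Ring P] {𝒮 : Sys D P}

/-- `N` in every copy -/
def powN {I : Type*} {p m : ℕ} (e : I × Fin p ≃ Fin m) (N : Submodule P (Fin p → P)) :
    Submodule P (Fin m → P) where
  carrier := {w | ∀ i, (fun q => w (e (i, q))) ∈ N}
  add_mem' ha hb i := N.add_mem (ha i) (hb i)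
  zero_mem' _ := N.zero_mem
  smul_mem' k _ ha i := N.smul_mem k (ha i)

lemma mem_powN {I : Type*} {p m : ℕ} (e : I × Fin p ≃ Fin m) (N : Submodule P (Fin p → P))
    (w : Fin m → P) : w ∈ powN e N ↔ ∀ i, (fun q => w (e (i, q))) ∈ N := Iff.rfl

namespace Ob

section pow

variable {I : Type*} {m : ℕ} (X : Ob 𝒮) (e : I × Fin X.m ≃ Fin m) (h : 𝒮.good m (powN e X.N))

/-- the power `X^I` -/
def pow : Ob 𝒮 := ⟨m, powN e X.N, h⟩

/-- the projection of `P^(I × m)` to a copy -/
def copyL (P : Type u) [Ring P] {I : Type*} {p m : ℕ} (e : I × Fin p ≃ Fin m) (i : I) :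
    (Fin m → P) →ₗ[P] (Fin p → P) :=
  LinearMap.funLeft P P fun q => e (i, q)

open scoped Classical in
/-- the inclusion of a copy -/
noncomputable def copyR (P : Type u) [Ring P] {I : Type*} {p m : ℕ} (e : I × Fin p ≃ Fin m)
    (i : I) : (Fin p → P) →ₗ[P] (Fin m → P) :=
  LinearMap.pi fun j => if (e.symm j).1 = i then LinearMap.proj (e.symm j).2 else 0

lemma copyL_apply {p : ℕ} (e : I × Fin p ≃ Fin m) (i : I) (w : Fin m → P) (q : Fin p) :
    copyL P e i w q = w (e (i, q)) := rfl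

open scoped Classical in
lemma copyR_apply {p : ℕ} (e : I × Fin p ≃ Fin m) (i : I) (v : Fin p → P) (j : Fin m) :
    copyR P e i v j = if (e.symm j).1 = i then v (e.symm j).2 else 0 := by
  rw [copyR, LinearMap.pi_apply]
  split_ifs <;> rfl

open scoped Classical in
lemma copyL_copyR {p : ℕ} (e : I × Fin p ≃ Fin m) (i j : I) (v : Fin p → P) :
    copyL P e j (copyR P e i v) = if i = j then v else 0 := by
  funext q
  rw [copyL_apply, copyR_apply, Equiv.symm_apply_apply]
  by_cases hij : i = j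
  · rw [if_pos hij.symm, if_pos hij]
  · rw [if_neg (Ne.symm hij), if_neg hij]
    rfl

lemma copy_total [Fintype I] {p : ℕ} (e : I × Fin p ≃ Fin m) (w : Fin m → P) :
    ∑ i, copyR P e i (copyL P e i w) = w := by
  classical
  funext j
  rw [Finset.sum_apply, Finset.sum_eq_single (e.symm j).1]
  · rw [copyR_apply, if_pos rfl, copyL_apply, Prod.mk.eta, Equiv.apply_symm_apply]
  · intro i _ hi
    rw [copyR_apply, if_neg (Ne.symm hi)]
  · intro hj
    exact absurd (Finset.mem_univ _) hj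

lemma copyR_const {p : ℕ} (e : I × Fin p ≃ Fin m) (i : I) (v : Fin p → D) :
    ∃ w : Fin m → D, (copyR P e i fun q => 𝒮.C (v q)) = fun j => 𝒮.C (w j) := by
  classical
  refine ⟨fun j => if (e.symm j).1 = i then v (e.symm j).2 else 0, ?_⟩
  funext j
  rw [copyR_apply]
  by_cases hj : (e.symm j).1 = i
  · simp only [if_pos hj]
  · simp only [if_neg hj, map_zero]

/-- the inclusion of a copy -/
noncomputable def powIn (i : I) : X ⟶ pow X e h :=
  ofLin (Submodule.mapQ _ _ (copyR P e i) (by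
    classical
    intro v hv j
    change copyL P e j (copyR P e i v) ∈ X.N
    rw [copyL_copyR]
    split_ifs
    · exact hv
    · exact zero_mem _)) (fun v => by
    obtain ⟨w, hw⟩ := copyR_const (𝒮 := 𝒮) e i v
    exact ⟨w, congrArg (pow X e h).N.mkQ hw⟩)

/-- the projection to a copy -/
def powOut (i : I) : pow X e h ⟶ X :=
  ofLin (Submodule.mapQ _ _ (copyL P e i) (fun _ hw => hw i)) (fun v =>
    ⟨fun q => v (e (i, q)), rfl⟩)

lemma lin_powIn (i : I) (v : Fin X.m → P) :
    lin (powIn X e h i) (X.N.mkQ v) = (pow X e h).N.mkQ (copyR P e i v) := rfl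

lemma lin_powOut (i : I) (w : Fin m → P) :
    lin (powOut X e h i) ((pow X e h).N.mkQ w) = X.N.mkQ (copyL P e i w) := rfl

open scoped Classical in
lemma powIn_powOut (i j : I) : powIn X e h i ≫ powOut X e h j = if i = j then 𝟙 X else 0 := by
  apply mkQ_ext
  intro v
  rw [lin_comp, LinearMap.comp_apply, lin_powIn]
  refine (lin_powOut X e h j _).trans ?_
  rw [copyL_copyR]
  split_ifs
  · rfl
  · rw [map_zero]
    rfl

lemma lin_sum {ι : Type*} (s : Finset ι) {X Y : Ob 𝒮} (f : ι → (X ⟶ Y)) :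
    lin (∑ i ∈ s, f i) = ∑ i ∈ s, lin (f i) := by
  classical
  induction s using Finset.induction_on with
  | empty => rw [Finset.sum_empty, Finset.sum_empty, lin_zero]
  | insert a s ha ih => rw [Finset.sum_insert ha, Finset.sum_insert ha, lin_add, ih]

lemma pow_total [Fintype I] : ∑ i, powOut X e h i ≫ powIn X e h i = 𝟙 (pow X e h) := by
  apply mkQ_ext
  intro w
  rw [lin_sum, LinearMap.sum_apply]
  have h1 : ∀ i, lin (powOut X e h i ≫ powIn X e h i) ((pow X e h).N.mkQ w) =
      (powN e X.N).mkQ (copyR P e i (copyL P e i w)) := fun i => rfl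
  have h2 : ∑ i, (powN e X.N).mkQ (copyR P e i (copyL P e i w)) = (powN e X.N).mkQ w := by
    rw [← map_sum]
    exact congrArg _ (copy_total e w)
  exact (Finset.sum_congr rfl fun i _ => h1 i).trans h2

/-- coordinates of `L (X^I)` -/
noncomputable def powCoord [Fintype I] [DecidableEq I] {E : Type*} [Category* E] [Preadditive E]
    (L : Ob 𝒮 ⥤ E) [L.Additive] {O : Ob 𝒮} (s : O ⟶ X) [IsIso (L.map s)] :
    Coord (L.obj O) (L.obj (pow X e h)) I where
  a i := L.map s ≫ L.map (powIn X e h i)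
  b i := L.map (powOut X e h i) ≫ inv (L.map s)
  orth i j := by
    have h1 : (L.map s ≫ L.map (powIn X e h i)) ≫ L.map (powOut X e h j) ≫ inv (L.map s) =
        L.map s ≫ L.map (powIn X e h i ≫ powOut X e h j) ≫ inv (L.map s) := by
      rw [L.map_comp, Category.assoc, Category.assoc]
    rw [h1, powIn_powOut]
    by_cases hij : i = j
    · rw [if_pos hij, if_pos hij, L.map_id, Category.id_comp, IsIso.hom_inv_id]
    · rw [if_neg hij, if_neg hij, L.map_zero, zero_comp, comp_zero]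
  total := by
    have h1 : ∀ i, (L.map (powOut X e h i) ≫ inv (L.map s)) ≫ L.map s ≫ L.map (powIn X e h i) =
        L.map (powOut X e h i ≫ powIn X e h i) := by
      intro i
      rw [L.map_comp, Category.assoc, IsIso.inv_hom_id_assoc]
    rw [Finset.sum_congr rfl fun i _ => h1 i, ← L.map_sum, pow_total, L.map_id]

lemma powCoord_a [Fintype I] [DecidableEq I] {E : Type*} [Category* E] [Preadditive E]
    (L : Ob 𝒮 ⥤ E) [L.Additive] {O : Ob 𝒮} (s : O ⟶ X) [IsIso (L.map s)] (i : I) :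
    (powCoord X e h L s).a i = L.map s ≫ L.map (powIn X e h i) := rfl

lemma powCoord_b [Fintype I] [DecidableEq I] {E : Type*} [Category* E] [Preadditive E]
    (L : Ob 𝒮 ⥤ E) [L.Additive] {O : Ob 𝒮} (s : O ⟶ X) [IsIso (L.map s)] (i : I) :
    (powCoord X e h L s).b i = L.map (powOut X e h i) ≫ inv (L.map s) := rfl

end pow

section quot

/-- the quotient of `X` by a larger submodule -/
def quo (X : Ob 𝒮) (N : Submodule P (Fin X.m → P)) (hN : 𝒮.good X.m N) : Ob 𝒮 := ⟨X.m, N, hN⟩

/-- the projection -/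
def quoπ (X : Ob 𝒮) (N : Submodule P (Fin X.m → P)) (hN : 𝒮.good X.m N) (h : X.N ≤ N) :
    X ⟶ quo X N hN :=
  ofLin (Submodule.mapQ _ _ LinearMap.id h) fun v => ⟨v, rfl⟩

variable {X : Ob 𝒮} {N : Submodule P (Fin X.m → P)} {hN : 𝒮.good X.m N} {h : X.N ≤ N}

lemma lin_quoπ (p : Fin X.m → P) : lin (quoπ X N hN h) (X.N.mkQ p) = (quo X N hN).N.mkQ p := rfl

lemma quoπ_surjective : Function.Surjective (lin (quoπ X N hN h)) := by
  intro y
  obtain ⟨p, rfl⟩ := (quo X N hN).N.mkQ_surjective y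
  exact ⟨X.N.mkQ p, rfl⟩

lemma epi_quoπ : Epi (quoπ X N hN h) := epi_of_surjective _ quoπ_surjective

/-- `quoπ` kills the elements of `N` -/
lemma lin_quoπ_eq_zero {p : Fin X.m → P} (hp : p ∈ N) : lin (quoπ X N hN h) (X.N.mkQ p) = 0 :=
  (Submodule.Quotient.mk_eq_zero N).2 hp

/-- morphisms killing `N` factor -/
lemma exists_quo_desc {Z : Ob 𝒮} (g : X ⟶ Z) (hg : ∀ p ∈ N, lin g (X.N.mkQ p) = 0) :
    ∃ g' : quo X N hN ⟶ Z, quoπ X N hN h ≫ g' = g := by
  refine ⟨ofLin (Submodule.liftQ _ ((lin g).comp X.N.mkQ) fun p hp => hg p hp) (fun v => by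
    obtain ⟨w, hw⟩ := lin_cst g v
    exact ⟨w, hw⟩), ?_⟩
  apply mkQ_ext
  intro p
  rfl

/-- it is enough to check generators -/
lemma exists_quo_desc_span {Z : Ob 𝒮} (g : X ⟶ Z) (s : Set (Fin X.m → P))
    (hNs : N ≤ X.N ⊔ Submodule.span P s) (hg : ∀ p ∈ s, lin g (X.N.mkQ p) = 0) :
    ∃ g' : quo X N hN ⟶ Z, quoπ X N hN h ≫ g' = g := by
  apply exists_quo_desc
  have h1 : N ≤ LinearMap.ker ((lin g).comp X.N.mkQ) := by
    refine hNs.trans (sup_le ?_ ?_)
    · intro p hp
      rw [LinearMap.mem_ker, LinearMap.comp_apply]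
      have h2 : X.N.mkQ p = 0 := (Submodule.Quotient.mk_eq_zero _).2 hp
      rw [h2, map_zero]
    · rw [Submodule.span_le]
      intro p hp
      exact hg p hp
  intro p hp
  exact h1 hp

end quot

end Ob

end Vale.Agent.P200.E
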