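import Vale.Agent.P200.E.Coord

/-!
# P200 / E : the rank formula for matrices over the localization
-/

open CategoryTheory CategoryTheory.Limits MulOpposite

universe v u

namespace Vale.Agent.P200.E

namespace RankFn

variable {C : Type u} [Category.{v} C] [Preadditive C] [HasCokernels C] [HasBinaryBiproducts C]
  [HasFiniteBiproducts C]
  (r : RankFn C) {D : Type*} [Category* D] [Preadditive D] (L : C ⥤ D) [L.IsLocalization r.S]
  [L.Additive]

include r

/-- coordinates of a power of `X`, `X` isomorphic to `O` in the localization -/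
noncomputable def coordPow {O X : C} (s : O ⟶ X) (hs : IsIso (L.map s)) (I : Type) [Fintype I]
    [DecidableEq I] : Coord (L.obj O) (L.obj (⨁ fun _ : I => X)) I where
  a i := L.map (s ≫ biproduct.ι (fun _ : I => X) i)
  b i := L.map (biproduct.π (fun _ : I => X) i) ≫ inv (L.map s)
  orth k l := by
    rw [← Category.assoc, ← L.map_comp, Category.assoc]
    by_cases h : k = l
    · subst h
      rw [biproduct.ι_π_self]
      simp
    · rw [biproduct.ι_π_ne _ h, comp_zero, L.map_zero, zero_comp, if_neg h]
  total := by
    have h : ∀ k : I, (L.map (biproduct.π (fun _ : I => X) k) ≫ inv (L.map s)) ≫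
        L.map (s ≫ biproduct.ι (fun _ : I => X) k) =
        L.map (biproduct.π (fun _ : I => X) k ≫ biproduct.ι (fun _ : I => X) k) := by
      intro k
      simp
    rw [Finset.sum_congr rfl fun k _ => h k, ← L.map_sum, biproduct.total, L.map_id]

/-- **rank formula** -/
theorem rank_formula {O X : C} (hO : r.rk O = 1) {J I : Type} [Fintype J] [Fintype I]
    [DecidableEq I] (s : O ⟶ X) (hs : r.S s) (f : J → I → (O ⟶ X))
    (a : J → I → (L.obj O ⟶ L.obj O)) (ha : ∀ j i, a j i ≫ L.map s = L.map (f j i)) :
    r.rk (cokernel (biproduct.matrix (f := fun _ : J => O) (g := fun _ : I => X) f)) +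
      Module.finrank (End (L.obj O))ᵐᵒᵖ (Submodule.span (End (L.obj O))ᵐᵒᵖ
        (Set.range fun j i => opp (a j i))) = Fintype.card I := by
  have hsi := r.isIso_map L s hs
  let c1 := coordPow L s hsi I
  let F := biproduct.matrix (f := fun _ : J => O) (g := fun _ : I => X) f
  let row : J → (L.obj O ⟶ L.obj (⨁ fun _ : I => X)) := fun j =>
    L.map (biproduct.ι (fun _ : J => O) j ≫ F)
  have hrow : ∀ j, c1.equiv (row j) = fun i => opp (a j i) := by
    intro j
    funext i
    rw [Coord.equiv_apply]
    congr 1
    change L.map (biproduct.ι (fun _ : J => O) j ≫ F) ≫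
      L.map (biproduct.π (fun _ : I => X) i) ≫ inv (L.map s) = a j i
    rw [← Category.assoc, ← L.map_comp, Category.assoc, biproduct.matrix_π, biproduct.ι_desc,
      ← ha]
    simp
  have hspan : Module.finrank (End (L.obj O))ᵐᵒᵖ (Submodule.span (End (L.obj O))ᵐᵒᵖ
      (Set.range fun j i => opp (a j i))) =
      Module.finrank (End (L.obj O))ᵐᵒᵖ (Submodule.span (End (L.obj O))ᵐᵒᵖ (Set.range row)) := by
    have h1 : (Set.range fun j i => opp (a j i)) = c1.equiv '' Set.range row := by
      rw [← Set.range_comp]
      congr 1
      funext j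
      exact (hrow j).symm
    have h2 : Submodule.span (End (L.obj O))ᵐᵒᵖ (c1.equiv '' Set.range row) =
        (Submodule.span (End (L.obj O))ᵐᵒᵖ (Set.range row)).map c1.equiv.toLinearMap :=
      (Submodule.map_span c1.equiv.toLinearMap _).symm
    rw [h1, h2]
    exact (LinearEquiv.finrank_eq (c1.equiv.submoduleMap _)).symm
  rw [hspan]
  have hq : Epi (L.map (cokernel.π F)) :=
    r.epi_map L _ (r.rk_coker_of_epi _ inferInstance)
  obtain ⟨c2⟩ := r.exists_coord L hO (Z := cokernel F)
    (fun i : I => s ≫ biproduct.ι (fun _ : I => X) i ≫ cokernel.π F) (by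
      intro T h hh
      rw [← cancel_epi (L.map (cokernel.π F)), comp_zero]
      apply c1.hom_eq_zero
      intro v
      rw [← Category.id_comp (L.map (cokernel.π F) ≫ h), ← c1.total, Preadditive.sum_comp,
        Preadditive.comp_sum]
      refine Finset.sum_eq_zero fun i _ => ?_
      have h1 := hh i
      have h2 : c1.a i ≫ L.map (cokernel.π F) ≫ h = 0 := by
        change L.map (s ≫ biproduct.ι (fun _ : I => X) i) ≫ L.map (cokernel.π F) ≫ h = 0
        rw [← Category.assoc, ← L.map_comp, Category.assoc]
        exact h1
      rw [Category.assoc, h2, comp_zero, comp_zero])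
  have hfin := finrank_coker (A := L.obj O) (fun e => by
      by_cases he : e = 0
      · exact Or.inr he
      · left
        have := r.isIso_of_ne_zero L hO e he
        exact (isUnit_iff_isIso e).2 inferInstance) (r.id_ne_zero L (by omega)) c1 c2
    (L.map (cokernel.π F)) hq (Submodule.span (End (L.obj O))ᵐᵒᵖ (Set.range row)) (by
      intro w hw
      induction hw using Submodule.span_induction with
      | mem x hx =>
        obtain ⟨j, rfl⟩ := hx
        change L.map (biproduct.ι (fun _ : J => O) j ≫ F) ≫ L.map (cokernel.π F) = 0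
        rw [← L.map_comp, Category.assoc, cokernel.condition, comp_zero, L.map_zero]
      | zero => rw [zero_comp]
      | add x y _ _ hx hy => rw [Preadditive.add_comp, hx, hy, add_zero]
      | smul e x _ hx =>
        change (arr e ≫ x) ≫ _ = 0
        rw [Category.assoc, hx, comp_zero]) (by
      intro h hh
      refine r.exists_desc L F h ?_
      have hepi : ∀ k : L.obj (⨁ fun _ : J => O) ⟶ L.obj O,
          (∀ j, L.map (biproduct.ι (fun _ : J => O) j) ≫ k = 0) → k = 0 := by
        classical
        intro k hk
        rw [← Category.id_comp k, ← L.map_id, ← biproduct.total, L.map_sum, Preadditive.sum_comp]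
        refine Finset.sum_eq_zero fun j _ => ?_
        rw [L.map_comp, Category.assoc, hk, comp_zero]
      apply hepi
      intro j
      rw [← Category.assoc, ← L.map_comp]
      exact hh _ (Submodule.subset_span ⟨j, rfl⟩))
  rw [Fintype.card_fin] at hfin
  exact hfin

end RankFn

end Vale.Agent.P200.E
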