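import Vale.Agent.P200.E.CatBip
import Vale.Agent.P200.E.Coord

/-!
# P200 / E : expansion of elements in the localization

`Rep y G` : after a morphism `u : Y ⟶ Z` of the class `S` the element `y` is
`∑ mon m • g_m(1)`, and `L(g_m) = G_m ≫ L(u)`.
-/

open CategoryTheory CategoryTheory.Limits MulOpposite

universe v' u' u

namespace Vale.Agent.P200.E

variable {D P : Type u} [Ring D] [Ring P] {𝒮 : Sys D P}

namespace Ob

/-- the free object of rank one -/
structure Free1 (𝒮 : Sys D P) where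
  N : Submodule P (Fin 1 → P)
  h : 𝒮.good 1 N
  kill : ∀ (Z : Ob 𝒮) (p : Fin 1 → P), p ∈ N → ∀ z : Z.M, p 0 • z = 0

namespace Free1

variable (F : Free1 𝒮)

/-- the object -/
abbrev O : Ob 𝒮 := ⟨1, F.N, F.h⟩

/-- the generator -/
def one : F.O.M := F.O.cst (1 : Fin 1 → D)

lemma mkQ_eq (p : Fin 1 → P) : F.O.N.mkQ p = p 0 • F.one := by
  have h : p = p 0 • (fun j => 𝒮.C ((1 : Fin 1 → D) j)) := by
    funext j
    fin_cases j
    simp
  conv_lhs => rw [h]
  rw [map_smul]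
  rfl

lemma exists_smul (z : F.O.M) : ∃ p : P, z = p • F.one := by
  obtain ⟨p, rfl⟩ := F.O.N.mkQ_surjective z
  exact ⟨p 0, F.mkQ_eq p⟩

lemma hom_ext_one {Z : Ob 𝒮} {f g : F.O ⟶ Z} (h : lin f F.one = lin g F.one) : f = g := by
  apply hom_ext
  refine LinearMap.ext fun z => ?_
  obtain ⟨p, rfl⟩ := F.exists_smul z
  rw [map_smul, map_smul, h]

lemma cst_eq (v : Fin 1 → D) : F.O.cst v = 𝒮.C (v 0) • F.one := F.mkQ_eq _

/-- the morphism with a given value -/
def hom (Z : Ob 𝒮) (v : Fin Z.m → D) : F.O ⟶ Z :=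
  ofLin (F.N.liftQ ((LinearMap.toSpanSingleton P Z.M (Z.cst v)).comp (LinearMap.proj 0))
    (fun p hp => F.kill Z p hp (Z.cst v))) (fun w => ⟨w 0 • v, by
      rw [cst_smul]
      rfl⟩)

lemma lin_hom_one (Z : Ob 𝒮) (v : Fin Z.m → D) : lin (F.hom Z v) F.one = Z.cst v := by
  change (LinearMap.toSpanSingleton P Z.M (Z.cst v)) (𝒮.C ((1 : Fin 1 → D) 0)) = _
  rw [LinearMap.toSpanSingleton_apply]
  simp

lemma lin_one (Z : Ob 𝒮) (f : F.O ⟶ Z) : ∃ v, lin f F.one = Z.cst v := lin_cst f _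

/-- right multiplication by a scalar -/
def rm (d : D) : F.O ⟶ F.O := F.hom F.O (fun _ => d)

lemma lin_rm_one (d : D) : lin (F.rm d) F.one = 𝒮.C d • F.one := by
  rw [rm, lin_hom_one, cst_eq]

lemma rm_comp {Z : Ob 𝒮} (d : D) (f : F.O ⟶ Z) : lin (F.rm d ≫ f) F.one = 𝒮.C d • lin f F.one := by
  rw [lin_comp, LinearMap.comp_apply, lin_rm_one, map_smul]

lemma rm_mul (d d' : D) : F.rm (d * d') = F.rm d ≫ F.rm d' := by
  apply F.hom_ext_one
  rw [rm_comp, lin_rm_one, lin_rm_one, map_mul, mul_smul]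

lemma rm_add (d d' : D) : F.rm (d + d') = F.rm d + F.rm d' := by
  apply F.hom_ext_one
  rw [lin_add, LinearMap.add_apply, lin_rm_one, lin_rm_one, lin_rm_one, map_add, add_smul]

lemma rm_one : F.rm 1 = 𝟙 F.O := by
  apply F.hom_ext_one
  rw [lin_rm_one, map_one, one_smul, lin_id, LinearMap.id_apply]

lemma rm_zero : F.rm 0 = 0 := by
  apply F.hom_ext_one
  rw [lin_rm_one, map_zero, zero_smul, lin_zero, LinearMap.zero_apply]

end Free1

end Ob

open Ob

section rep

variable (F : Free1 𝒮) {M : Type} [AddMonoid M] (mon : Multiplicative M →* P)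

/-- `∑ mon m • g_m(1)` -/
noncomputable def tot (Z : Ob 𝒮) : (M →₀ (F.O ⟶ Z)) →+ Z.M :=
  Finsupp.liftAddHom fun m =>
    { toFun := fun a => mon (Multiplicative.ofAdd m) • lin a F.one
      map_zero' := by rw [lin_zero, LinearMap.zero_apply, smul_zero]
      map_add' := fun a b => by rw [lin_add, LinearMap.add_apply, smul_add] }

lemma tot_single (Z : Ob 𝒮) (m : M) (a : F.O ⟶ Z) :
    tot F mon Z (Finsupp.single m a) = mon (Multiplicative.ofAdd m) • lin a F.one := by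
  simp [tot]

/-- composition on the right -/
noncomputable def compR {𝒟 : Type*} [Category* 𝒟] [Preadditive 𝒟] (M : Type) {A Y Z : 𝒟}
    (f : Y ⟶ Z) : (M →₀ (A ⟶ Y)) →+ (M →₀ (A ⟶ Z)) :=
  Finsupp.mapRange.addMonoidHom (Preadditive.rightComp A f)

@[simp] lemma compR_apply {𝒟 : Type*} [Category* 𝒟] [Preadditive 𝒟] (M : Type) {A Y Z : 𝒟}
    (f : Y ⟶ Z) (g : M →₀ (A ⟶ Y)) (m : M) : compR M f g m = g m ≫ f := rfl

lemma compR_single {𝒟 : Type*} [Category* 𝒟] [Preadditive 𝒟] (M : Type) {A Y Z : 𝒟}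
    (f : Y ⟶ Z) (m : M) (a : A ⟶ Y) :
    compR M f (Finsupp.single m a) = Finsupp.single m (a ≫ f) := by
  simp [compR, Preadditive.rightComp]

lemma compR_comp {𝒟 : Type*} [Category* 𝒟] [Preadditive 𝒟] (M : Type) {A X Y Z : 𝒟}
    (e : X ⟶ Y) (f : Y ⟶ Z) (g : M →₀ (A ⟶ X)) :
    compR M f (compR M e g) = compR M (e ≫ f) g := by
  ext m
  simp

lemma lin_tot {Y Z : Ob 𝒮} (f : Y ⟶ Z) (g : M →₀ (F.O ⟶ Y)) :
    lin f (tot F mon Y g) = tot F mon Z (compR M f g) := by
  induction g using Finsupp.induction_linear with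
  | zero => simp
  | add a b ha hb => rw [map_add, map_add, ha, hb, map_add, map_add]
  | single m a =>
    rw [tot_single, compR_single, tot_single, map_smul, lin_comp, LinearMap.comp_apply]

variable (ρ : RkData 𝒮) {𝒟 : Type u'} [Category.{v'} 𝒟] [Preadditive 𝒟] (L : Ob 𝒮 ⥤ 𝒟)
  [L.IsLocalization ρ.toRankFn.S] [L.Additive]

/-- the image of a family in the localization -/
noncomputable def mapL {X Y : Ob 𝒮} (M : Type) : (M →₀ (X ⟶ Y)) →+ (M →₀ (L.obj X ⟶ L.obj Y)) :=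
  Finsupp.mapRange.addMonoidHom L.mapAddHom

@[simp] lemma mapL_apply {X Y : Ob 𝒮} (M : Type) (g : M →₀ (X ⟶ Y)) (m : M) :
    mapL L M g m = L.map (g m) := rfl

lemma mapL_single {X Y : Ob 𝒮} (M : Type) (m : M) (a : X ⟶ Y) :
    mapL L M (Finsupp.single m a) = Finsupp.single m (L.map a) := by
  simp [mapL]

lemma mapL_compR {X Y Z : Ob 𝒮} (M : Type) (f : Y ⟶ Z) (g : M →₀ (X ⟶ Y)) :
    mapL L M (compR M f g) = compR M (L.map f) (mapL L M g) := by
  ext m
  simp

/-- **the expansion of an element** -/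
def Rep {Y : Ob 𝒮} (y : Y.M) (G : M →₀ (L.obj F.O ⟶ L.obj Y)) : Prop :=
  ∃ (Z : Ob 𝒮) (u : Y ⟶ Z) (g : M →₀ (F.O ⟶ Z)), ρ.toRankFn.S u ∧ lin u y = tot F mon Z g ∧
    mapL L M g = compR M (L.map u) G

variable {F mon ρ L}

lemma Rep.zero {Y : Ob 𝒮} : Rep F mon ρ L (0 : Y.M) (0 : M →₀ (L.obj F.O ⟶ L.obj Y)) :=
  ⟨Y, 𝟙 Y, 0, MorphismProperty.id_mem _ _, by simp, by simp⟩

lemma Rep.add {Y : Ob 𝒮} {y y' : Y.M} {G G' : M →₀ (L.obj F.O ⟶ L.obj Y)}
    (h : Rep F mon ρ L y G) (h' : Rep F mon ρ L y' G') : Rep F mon ρ L (y + y') (G + G') := by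
  obtain ⟨Z, u, g, hu, hy, hg⟩ := h
  obtain ⟨Z', u', g', hu', hy', hg'⟩ := h'
  obtain ⟨ψ, hψ⟩ := MorphismProperty.RightFraction.exists_leftFraction
    (MorphismProperty.RightFraction.mk (W := ρ.toRankFn.S) u hu u')
  obtain ⟨T, v, w, hw, rfl⟩ := ψ.cases
  simp only at hψ
  -- hψ : u' ≫ w = u ≫ v
  refine ⟨T, u' ≫ w, compR M v g + compR M w g', MorphismProperty.comp_mem _ _ _ hu' hw, ?_, ?_⟩
  · rw [map_add, map_add]
    congr 1
    · rw [hψ, lin_comp, LinearMap.comp_apply, hy, lin_tot]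
    · rw [lin_comp, LinearMap.comp_apply, hy', lin_tot]
  · rw [map_add, map_add, mapL_compR, mapL_compR, hg, hg', compR_comp, compR_comp, ← L.map_comp,
      ← L.map_comp, hψ]

/-- naturality -/
lemma Rep.nat {Y Y' : Ob 𝒮} (f : Y ⟶ Y') {y : Y.M} {G : M →₀ (L.obj F.O ⟶ L.obj Y)}
    (h : Rep F mon ρ L y G) : Rep F mon ρ L (lin f y) (compR M (L.map f) G) := by
  obtain ⟨Z, u, g, hu, hy, hg⟩ := h
  obtain ⟨ψ, hψ⟩ := MorphismProperty.RightFraction.exists_leftFraction
    (MorphismProperty.RightFraction.mk (W := ρ.toRankFn.S) u hu f)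
  obtain ⟨T, v, w, hw, rfl⟩ := ψ.cases
  simp only at hψ
  refine ⟨T, w, compR M v g, hw, ?_, ?_⟩
  · have h1 : lin w (lin f y) = lin v (lin u y) := by
      rw [← LinearMap.comp_apply, ← LinearMap.comp_apply, ← lin_comp, ← lin_comp, hψ]
    rw [h1, hy, lin_tot]
  · rw [mapL_compR, hg, compR_comp, compR_comp, ← L.map_comp, ← L.map_comp, hψ]

/-- descent along a morphism of the class `S` -/
lemma Rep.desc {Y Z : Ob 𝒮} (u : Y ⟶ Z) (hu : ρ.toRankFn.S u) {y : Y.M}
    {G : M →₀ (L.obj F.O ⟶ L.obj Y)}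
    (h : Rep F mon ρ L (lin u y) (compR M (L.map u) G)) : Rep F mon ρ L y G := by
  obtain ⟨T, v, g, hv, hy, hg⟩ := h
  refine ⟨T, u ≫ v, g, MorphismProperty.comp_mem _ _ _ hu hv, ?_, ?_⟩
  · rw [lin_comp, LinearMap.comp_apply, hy]
  · rw [hg, compR_comp, ← L.map_comp]

/-- the value of a morphism -/
lemma Rep.const {Y : Ob 𝒮} (a : F.O ⟶ Y) :
    Rep F mon ρ L (lin a F.one) (Finsupp.single (0 : M) (L.map a)) := by
  refine ⟨Y, 𝟙 Y, Finsupp.single 0 a, MorphismProperty.id_mem _ _, ?_, ?_⟩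
  · rw [tot_single, ofAdd_zero, map_one, one_smul, lin_id, LinearMap.id_apply]
  · rw [mapL_single, L.map_id, compR_single, Category.comp_id]

/-- the shift of a family -/
noncomputable def shift {A : Type*} [AddCommMonoid A] (m0 : M) : (M →₀ A) →+ (M →₀ A) :=
  Finsupp.mapDomain.addMonoidHom fun m => m0 + m

lemma shift_single {A : Type*} [AddCommMonoid A] (m0 m : M) (a : A) :
    shift m0 (Finsupp.single m a) = Finsupp.single (m0 + m) a := by
  simp [shift]

lemma tot_shift {Z : Ob 𝒮} (m0 : M) (g : M →₀ (F.O ⟶ Z)) :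
    tot F mon Z (shift m0 g) = mon (Multiplicative.ofAdd m0) • tot F mon Z g := by
  induction g using Finsupp.induction_linear with
  | zero => simp
  | add a b ha hb => rw [map_add, map_add, ha, hb, map_add, smul_add]
  | single m a =>
    rw [shift_single, tot_single, tot_single, ofAdd_add, map_mul, mul_smul]

lemma mapL_shift {X Y : Ob 𝒮} (m0 : M) (g : M →₀ (X ⟶ Y)) :
    mapL L M (shift m0 g) = shift m0 (mapL L M g) := by
  induction g using Finsupp.induction_linear with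
  | zero => simp
  | add a b ha hb => rw [map_add, map_add, ha, hb, map_add, map_add]
  | single m a => rw [shift_single, mapL_single, mapL_single, shift_single]

lemma compR_shift {𝒟 : Type*} [Category* 𝒟] [Preadditive 𝒟] {A Y Z : 𝒟} (f : Y ⟶ Z) (m0 : M)
    (g : M →₀ (A ⟶ Y)) : compR M f (shift m0 g) = shift m0 (compR M f g) := by
  induction g using Finsupp.induction_linear with
  | zero => simp
  | add a b ha hb => rw [map_add, map_add, ha, hb, map_add, map_add]
  | single m a => rw [shift_single, compR_single, compR_single, shift_single]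

/-- multiplication by a monomial -/
lemma Rep.monmul {Y : Ob 𝒮} {y : Y.M} {G : M →₀ (L.obj F.O ⟶ L.obj Y)}
    (h : Rep F mon ρ L y G) (m0 : M) :
    Rep F mon ρ L (mon (Multiplicative.ofAdd m0) • y) (shift m0 G) := by
  obtain ⟨Z, u, g, hu, hy, hg⟩ := h
  refine ⟨Z, u, shift m0 g, hu, ?_, ?_⟩
  · rw [map_smul, hy, tot_shift]
  · rw [mapL_shift, hg, compR_shift]

/-- composition on the left -/
noncomputable def compL {𝒟 : Type*} [Category* 𝒟] [Preadditive 𝒟] (M : Type) {A B Y : 𝒟}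
    (f : A ⟶ B) : (M →₀ (B ⟶ Y)) →+ (M →₀ (A ⟶ Y)) :=
  Finsupp.mapRange.addMonoidHom (Preadditive.leftComp Y f)

@[simp] lemma compL_apply {𝒟 : Type*} [Category* 𝒟] [Preadditive 𝒟] (M : Type) {A B Y : 𝒟}
    (f : A ⟶ B) (g : M →₀ (B ⟶ Y)) (m : M) : compL M f g m = f ≫ g m := rfl

lemma compL_single {𝒟 : Type*} [Category* 𝒟] [Preadditive 𝒟] (M : Type) {A B Y : 𝒟}
    (f : A ⟶ B) (m : M) (a : B ⟶ Y) :
    compL M f (Finsupp.single m a) = Finsupp.single m (f ≫ a) := by
  simp [compL, Preadditive.leftComp]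

/-- scalars -/
lemma Rep.smul {Y : Ob 𝒮} {y : Y.M} {G : M →₀ (L.obj F.O ⟶ L.obj Y)} (d : D)
    (hd : ∀ m, Commute (𝒮.C d) (mon m)) (h : Rep F mon ρ L y G) :
    Rep F mon ρ L (𝒮.C d • y) (compL M (L.map (F.rm d)) G) := by
  obtain ⟨Z, u, g, hu, hy, hg⟩ := h
  refine ⟨Z, u, compL M (F.rm d) g, hu, ?_, ?_⟩
  · rw [map_smul, hy]
    clear hy hg
    induction g using Finsupp.induction_linear with
    | zero => simp
    | add a b ha hb => rw [map_add, smul_add, ha, hb, map_add, map_add]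
    | single m a =>
      rw [compL_single, tot_single, tot_single, F.rm_comp, smul_smul, smul_smul,
        (hd (Multiplicative.ofAdd m)).eq]
  · ext m
    have h1 := DFunLike.congr_fun hg m
    simp only [mapL_apply, compR_apply, compL_apply, L.map_comp] at h1 ⊢
    rw [h1, Category.assoc]

/-- the action of an element `η = V0 x + V1 y` -/
noncomputable def act {A B Y : 𝒟} (m0 m1 : M) (V0 V1 : A ⟶ B) :
    (M →₀ (B ⟶ Y)) →+ (M →₀ (A ⟶ Y)) :=
  (shift m0).comp (compL M V0) + (shift m1).comp (compL M V1)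

lemma act_single {A B Y : 𝒟} (m0 m1 : M) (V0 V1 : A ⟶ B) (m : M) (a : B ⟶ Y) :
    act m0 m1 V0 V1 (Finsupp.single m a) =
      Finsupp.single (m0 + m) (V0 ≫ a) + Finsupp.single (m1 + m) (V1 ≫ a) := by
  simp only [act, AddMonoidHom.add_apply, AddMonoidHom.comp_apply, compL_single, shift_single]

lemma act_compR {A B Y Z : 𝒟} (m0 m1 : M) (V0 V1 : A ⟶ B) (f : Y ⟶ Z) (G : M →₀ (B ⟶ Y)) :
    act m0 m1 V0 V1 (compR M f G) = compR M f (act m0 m1 V0 V1 G) := by
  induction G using Finsupp.induction_linear with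
  | zero => simp
  | add a b ha hb => simp only [map_add, ha, hb]
  | single m a =>
    rw [compR_single, act_single, act_single, map_add, compR_single, compR_single,
      Category.assoc, Category.assoc]

/-- **multiplication by `η`** -/
lemma Rep.eta (m0 m1 : M) (η : P) (V0 V1 : L.obj F.O ⟶ L.obj F.O)
    (hcomm : ∀ m, Commute η (mon m)) (hadd0 : ∀ m, m0 + m = m + m0) (hadd1 : ∀ m, m1 + m = m + m1)
    (h1 : Rep F mon ρ L (η • F.one) (Finsupp.single m0 V0 + Finsupp.single m1 V1))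
    {Y : Ob 𝒮} {y : Y.M} {G : M →₀ (L.obj F.O ⟶ L.obj Y)} (h : Rep F mon ρ L y G) :
    Rep F mon ρ L (η • y) (act m0 m1 V0 V1 G) := by
  obtain ⟨Z, u, g, hu, hy, hg⟩ := h
  have key : Rep F mon ρ L (η • tot F mon Z g) (act m0 m1 V0 V1 (mapL L M g)) := by
    clear hy hg
    induction g using Finsupp.induction_linear with
    | zero => simpa using Rep.zero
    | add a b ha hb =>
      rw [map_add, smul_add, map_add, map_add]
      exact ha.add hb
    | single m a =>
      have h2 := (h1.nat a).monmul m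
      rw [map_smul, map_add, compR_single, compR_single, map_add, shift_single, shift_single] at h2
      rw [tot_single, mapL_single, act_single, hadd0, hadd1, smul_smul,
        (hcomm (Multiplicative.ofAdd m)).eq, ← smul_smul]
      exact h2
  rw [hg, act_compR, ← hy, ← map_smul] at key
  exact key.desc u hu

/-- uniqueness of the expansion -/
lemma Rep.unique (hfree : ∀ (Z : Ob 𝒮) (g : M →₀ (F.O ⟶ Z)), tot F mon Z g = 0 →
      ∀ m, L.map (g m) = 0)
    {Y : Ob 𝒮} {y : Y.M} {G G' : M →₀ (L.obj F.O ⟶ L.obj Y)}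
    (h : Rep F mon ρ L y G) (h' : Rep F mon ρ L y G') : G = G' := by
  obtain ⟨Z, u, g, hu, hy, hg⟩ := h
  obtain ⟨Z', u', g', hu', hy', hg'⟩ := h'
  obtain ⟨ψ, hψ⟩ := MorphismProperty.RightFraction.exists_leftFraction
    (MorphismProperty.RightFraction.mk (W := ρ.toRankFn.S) u hu u')
  obtain ⟨T, v, w, hw, rfl⟩ := ψ.cases
  simp only at hψ
  have h1 : tot F mon T (compR M v g - compR M w g') = 0 := by
    rw [map_sub, ← lin_tot, ← lin_tot, ← hy, ← hy', ← LinearMap.comp_apply,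
      ← LinearMap.comp_apply, ← lin_comp, ← lin_comp, hψ, sub_self]
  ext m
  have h2 := hfree T _ h1 m
  have h3 := DFunLike.congr_fun hg m
  have h4 := DFunLike.congr_fun hg' m
  simp only [mapL_apply, compR_apply] at h3 h4
  have h5 : (compR M v g - compR M w g') m = g m ≫ v - g' m ≫ w := rfl
  rw [h5, L.map_sub, L.map_comp, L.map_comp, h3, h4, Category.assoc, Category.assoc,
    ← L.map_comp, ← L.map_comp, hψ, ← Preadditive.sub_comp] at h2
  have h6 := ρ.toRankFn.isIso_map L (u' ≫ w) (MorphismProperty.comp_mem _ _ _ hu' hw)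
  rw [hψ] at h6
  have h7 := (cancel_mono (L.map (u ≫ v))).1 (h2.trans zero_comp.symm)
  exact sub_eq_zero.1 h7

end rep

end Vale.Agent.P200.E
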