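import Vale.Agent.P200.E.Coord

/-!
# P200 / E : the rank of a presented object

`T1` is the power `X^I` (`X` isomorphic to `O` in the localization by `s`), `T2` the quotient of `T1` by finitely
many morphisms `α j : O ⟶ T1`, `γ j : X ⟶ T1`.  The rank of `T2` is the codimension of the span of the
vectors of the `α j` and of the `s ≫ γ j`.
-/

open CategoryTheory CategoryTheory.Limits MulOpposite

universe v u

namespace Vale.Agent.P200.E

namespace RankFn

variable {C : Type u} [Category.{v} C] [Preadditive C] [HasCokernels C] [HasBinaryBiproducts C]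
  (r : RankFn C) {D : Type*} [Category* D] [Preadditive D] (L : C ⥤ D) [L.IsLocalization r.S]
  [L.Additive]

include r

/-- finitely many morphisms which vanish in the localization are killed by one `t` -/
theorem exists_kill {J : Type*} [Finite J] {X : J → C} {Y : C} (g : ∀ j, X j ⟶ Y)
    (h : ∀ j, L.map (g j) = 0) : ∃ (Z : C) (t : Y ⟶ Z), r.S t ∧ ∀ j, g j ≫ t = 0 := by
  classical
  cases nonempty_fintype J
  suffices hs : ∀ T : Finset J, ∃ (Z : C) (t : Y ⟶ Z), r.S t ∧ ∀ j ∈ T, g j ≫ t = 0 by
    obtain ⟨Z, t, ht, hz⟩ := hs Finset.univ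
    exact ⟨Z, t, ht, fun j => hz j (Finset.mem_univ j)⟩
  intro T
  induction T using Finset.induction_on with
  | empty => exact ⟨Y, 𝟙 Y, r.S.id_mem _, fun j hj => absurd hj (Finset.notMem_empty j)⟩
  | insert a T _ ih =>
    obtain ⟨Z, t, ht, hz⟩ := ih
    obtain ⟨Z', t', ht', hz'⟩ := r.map_eq_zero L (g a ≫ t) (by rw [L.map_comp, h a, zero_comp])
    refine ⟨Z', t ≫ t', r.S.comp_mem _ _ ht ht', fun j hj => ?_⟩
    rcases Finset.mem_insert.1 hj with h1 | h1
    · subst h1
      rw [← Category.assoc, hz']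
    · rw [← Category.assoc, hz j h1, zero_comp]

/-- coordinates of a power of `X`, `X` isomorphic to `O` in the localization -/
noncomputable def coordOf {O X T : C} (s : O ⟶ X) (hs : IsIso (L.map s)) {I : Type} [Fintype I]
    [DecidableEq I] (incl : I → (X ⟶ T)) (pr : I → (T ⟶ X))
    (horth : ∀ i k, incl i ≫ pr k = if i = k then 𝟙 X else 0)
    (htot : ∑ i, pr i ≫ incl i = 𝟙 T) : Coord (L.obj O) (L.obj T) I where
  a i := L.map (s ≫ incl i)
  b i := L.map (pr i) ≫ inv (L.map s)
  orth k l := by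
    rw [← Category.assoc, ← L.map_comp, Category.assoc, horth]
    by_cases h : k = l
    · subst h
      simp
    · rw [if_neg h, if_neg h, comp_zero, L.map_zero, zero_comp]
  total := by
    have h : ∀ k : I, (L.map (pr k) ≫ inv (L.map s)) ≫ L.map (s ≫ incl k) =
        L.map (pr k ≫ incl k) := by
      intro k
      simp
    rw [Finset.sum_congr rfl fun k _ => h k, ← L.map_sum, htot, L.map_id]

/-- **the rank of a presented object** -/
theorem rank_pres {O X T1 T2 : C} (hO : r.rk O = 1) (s : O ⟶ X) (hs : r.S s)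
    {I J J' : Type} [Fintype I] [DecidableEq I] [Finite J] [Finite J']
    (incl : I → (X ⟶ T1)) (pr : I → (T1 ⟶ X))
    (horth : ∀ i k, incl i ≫ pr k = if i = k then 𝟙 X else 0)
    (htot : ∑ i, pr i ≫ incl i = 𝟙 T1) (q : T1 ⟶ T2) (hq : Epi q)
    (α : J → (O ⟶ T1)) (γ : J' → (X ⟶ T1)) (hα : ∀ j, α j ≫ q = 0) (hγ : ∀ j, γ j ≫ q = 0)
    (huniv : ∀ {Z : C} (g : T1 ⟶ Z), (∀ j, α j ≫ g = 0) → (∀ j, γ j ≫ g = 0) →
      ∃ g' : T2 ⟶ Z, q ≫ g' = g)
    (u : J → I → (End (L.obj O))ᵐᵒᵖ) (hu : ∀ j i, arr (u j i) ≫ L.map s = L.map (α j ≫ pr i))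
    (w : J' → I → (End (L.obj O))ᵐᵒᵖ)
    (hw : ∀ j i, arr (w j i) ≫ L.map s = L.map (s ≫ γ j ≫ pr i)) :
    r.rk T2 + Module.finrank (End (L.obj O))ᵐᵒᵖ
      (Submodule.span (End (L.obj O))ᵐᵒᵖ (Set.range u) ⊔
        Submodule.span (End (L.obj O))ᵐᵒᵖ (Set.range w) :
          Submodule (End (L.obj O))ᵐᵒᵖ (I → (End (L.obj O))ᵐᵒᵖ)) = Fintype.card I := by
  have hsi := r.isIso_map L s hs
  let c1 := coordOf L s hsi incl pr horth htot
  have hrow : ∀ j, c1.equiv (L.map (α j)) = u j := by
    intro j
    funext i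
    rw [Coord.equiv_apply]
    have h1 : L.map (α j) ≫ L.map (pr i) ≫ inv (L.map s) = arr (u j i) := by
      rw [← Category.assoc, ← L.map_comp, ← hu]
      simp
    exact congrArg opp h1
  have hrow' : ∀ j, c1.equiv (L.map (s ≫ γ j)) = w j := by
    intro j
    funext i
    rw [Coord.equiv_apply]
    have h1 : L.map (s ≫ γ j) ≫ L.map (pr i) ≫ inv (L.map s) = arr (w j i) := by
      rw [← Category.assoc, ← L.map_comp, Category.assoc, ← hw]
      simp
    exact congrArg opp h1
  let W : Submodule (End (L.obj O))ᵐᵒᵖ (L.obj O ⟶ L.obj T1) :=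
    Submodule.span (End (L.obj O))ᵐᵒᵖ (Set.range fun j => L.map (α j)) ⊔
      Submodule.span (End (L.obj O))ᵐᵒᵖ (Set.range fun j => L.map (s ≫ γ j))
  have hspan : (Submodule.span (End (L.obj O))ᵐᵒᵖ (Set.range u) ⊔
        Submodule.span (End (L.obj O))ᵐᵒᵖ (Set.range w) :
          Submodule (End (L.obj O))ᵐᵒᵖ (I → (End (L.obj O))ᵐᵒᵖ)) =
        W.map c1.equiv.toLinearMap := by
    have h1 : Set.range u = c1.equiv.toLinearMap '' Set.range fun j => L.map (α j) := by
      rw [← Set.range_comp]
      congr 1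
      funext j
      exact (hrow j).symm
    have h2 : Set.range w = c1.equiv.toLinearMap '' Set.range fun j => L.map (s ≫ γ j) := by
      rw [← Set.range_comp]
      congr 1
      funext j
      exact (hrow' j).symm
    rw [h1, h2, Submodule.map_sup, Submodule.map_span, Submodule.map_span]
  have hfr : Module.finrank (End (L.obj O))ᵐᵒᵖ
      (Submodule.span (End (L.obj O))ᵐᵒᵖ (Set.range u) ⊔
        Submodule.span (End (L.obj O))ᵐᵒᵖ (Set.range w) :
          Submodule (End (L.obj O))ᵐᵒᵖ (I → (End (L.obj O))ᵐᵒᵖ)) =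
      Module.finrank (End (L.obj O))ᵐᵒᵖ W := by
    rw [hspan]
    exact (LinearEquiv.finrank_eq (c1.equiv.submoduleMap W)).symm
  rw [hfr]
  have hqe : Epi (L.map q) := r.epi_map L _ (r.rk_coker_of_epi _ hq)
  obtain ⟨c2⟩ := r.exists_coord L hO (Z := T2) (fun i : I => s ≫ incl i ≫ q) (by
      intro T h hh
      rw [← cancel_epi (L.map q), comp_zero]
      apply c1.hom_eq_zero
      intro v
      rw [← Category.id_comp (L.map q ≫ h), ← c1.total, Preadditive.sum_comp,
        Preadditive.comp_sum]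
      refine Finset.sum_eq_zero fun i _ => ?_
      have h1 := hh i
      have h2 : c1.a i ≫ L.map q ≫ h = 0 := by
        change L.map (s ≫ incl i) ≫ L.map q ≫ h = 0
        rw [← Category.assoc, ← L.map_comp, Category.assoc]
        exact h1
      rw [Category.assoc, h2, comp_zero, comp_zero])
  have hfin := finrank_coker (A := L.obj O) (fun e => by
      by_cases he : e = 0
      · exact Or.inr he
      · left
        have := r.isIso_of_ne_zero L hO e he
        exact (isUnit_iff_isIso e).2 inferInstance) (r.id_ne_zero L (by omega)) c1 c2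
    (L.map q) hqe W (by
      intro x hx
      let Q : (L.obj O ⟶ L.obj T1) →ₗ[(End (L.obj O))ᵐᵒᵖ] (L.obj O ⟶ L.obj T2) :=
        { toFun := fun v => v ≫ L.map q
          map_add' := fun v w => Preadditive.add_comp _ _ _ _ _ _
          map_smul' := fun e v => by
            change (arr e ≫ v) ≫ L.map q = arr e ≫ v ≫ L.map q
            rw [Category.assoc] }
      have hle : W ≤ LinearMap.ker Q := by
        refine sup_le ?_ ?_
        · rw [Submodule.span_le]
          rintro _ ⟨j, rfl⟩
          change L.map (α j) ≫ L.map q = 0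
          rw [← L.map_comp, hα, L.map_zero]
        · rw [Submodule.span_le]
          rintro _ ⟨j, rfl⟩
          change L.map (s ≫ γ j) ≫ L.map q = 0
          rw [← L.map_comp, Category.assoc, hγ, comp_zero, L.map_zero]
      exact hle hx) (by
      intro h hh
      obtain ⟨Z, g, t, ht, hht⟩ := r.exists_frac L h
      have hti := r.isIso_map L t ht
      obtain ⟨Z1, t1, ht1, hk1⟩ := r.exists_kill L (fun j => α j ≫ g) (fun j => by
        rw [L.map_comp, ← hht, ← Category.assoc,
          hh _ (Submodule.mem_sup_left (Submodule.subset_span ⟨j, rfl⟩)), zero_comp])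
      obtain ⟨Z2, t2, ht2, hk2⟩ := r.exists_kill L (fun j => γ j ≫ g ≫ t1) (fun j => by
        have h1 := hh _ (Submodule.mem_sup_right (Submodule.subset_span ⟨j, rfl⟩) :
          L.map (s ≫ γ j) ∈ W)
        have h2 : L.map (γ j) ≫ h = 0 := by
          rw [← cancel_epi (L.map s), ← Category.assoc, ← L.map_comp, h1, comp_zero]
        rw [L.map_comp, L.map_comp, ← hht, Category.assoc, ← Category.assoc, h2, zero_comp])
      have ht1i := r.isIso_map L t1 ht1
      have ht2i := r.isIso_map L t2 ht2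
      have httt := r.isIso_map L (t ≫ t1 ≫ t2)
        (r.S.comp_mem _ _ ht (r.S.comp_mem _ _ ht1 ht2))
      obtain ⟨g', hg'⟩ := huniv (g ≫ t1 ≫ t2) (fun j => by
        rw [← Category.assoc, ← Category.assoc, hk1, zero_comp]) (fun j => by
        have := hk2 j
        simpa only [Category.assoc] using this)
      refine ⟨L.map g' ≫ inv (L.map (t ≫ t1 ≫ t2)), ?_⟩
      rw [← Category.assoc, ← L.map_comp, hg', IsIso.comp_inv_eq, L.map_comp, L.map_comp,
        L.map_comp, L.map_comp, ← Category.assoc h, hht])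
  rw [Fintype.card_fin] at hfin
  exact hfin

end RankFn

end Vale.Agent.P200.E
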